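import Mathlib

open MeasureTheory Filter Topology

namespace Vale.Agent.P102

/-- The `n`-th power (`n` an integer) of an invertible measurable map, as a function. -/
def pw {Ω : Type*} [MeasurableSpace Ω] (T : Ω ≃ᵐ Ω) (n : ℤ) : Ω → Ω :=
  ⇑((T.toEquiv : Equiv.Perm Ω) ^ n)

/-- Mixing of order `k` (the order counts the sets):
`μ (⋂ T^{-t_i} A_i) → ∏ μ (A_i)` as all gaps `t_{i+1} - t_i` tend to infinity. -/
def MixingOfOrder {Ω : Type*} [MeasurableSpace Ω] (μ : Measure Ω) (T : Ω ≃ᵐ Ω) (k : ℕ) : Prop :=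
  ∀ A : Fin k → Set Ω, (∀ i, MeasurableSet (A i)) → ∀ ε : ℝ, 0 < ε → ∃ N : ℕ,
    ∀ t : Fin k → ℤ, (∀ i j, i < j → t i + N ≤ t j) →
      |μ.real (⋂ i, (pw T (t i)) ⁻¹' (A i)) - ∏ i, μ.real (A i)| < ε

/-- Weak convergence: integrals over every measurable set converge. -/
def WeakTo {Ω : Type*} [MeasurableSpace Ω] (μ : Measure Ω) (u : ℕ → Ω → ℝ) (v : Ω → ℝ) : Prop :=
  ∀ A : Set Ω, MeasurableSet A →
    Tendsto (fun n => ∫ x in A, u n x ∂μ) atTop (𝓝 (∫ x in A, v x ∂μ))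

end Vale.Agent.P102
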