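import Mathlib
import Vale.Agent.Lib.P102.Defs

open MeasureTheory Filter Topology

namespace Vale.Agent.P102

variable {Ω : Type*} [MeasurableSpace Ω] {μ : Measure Ω} {T : Ω ≃ᵐ Ω}

lemma pw_natCast (n : ℕ) : pw T (n : ℤ) = T^[n] := by
  unfold pw
  rw [zpow_natCast, ← Equiv.Perm.iterate_eq_pow]
  rfl

lemma pw_negSucc (n : ℕ) : pw T (Int.negSucc n) = T.symm^[n+1] := by
  unfold pw
  rw [zpow_negSucc, ← inv_pow, ← Equiv.Perm.iterate_eq_pow]
  rfl

lemma pw_mp (hT : MeasurePreserving T μ μ) (n : ℤ) : MeasurePreserving (pw T n) μ μ := by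
  cases n with
  | ofNat n =>
    rw [Int.ofNat_eq_natCast, pw_natCast]
    exact hT.iterate n
  | negSucc n =>
    rw [pw_negSucc]
    exact (hT.symm T).iterate (n+1)

lemma pw_comm {S : Ω ≃ᵐ Ω} (h : ∀ x, S (T x) = T (S x)) (n : ℤ) (x : Ω) :
    S (pw T n x) = pw T n (S x) := by
  have h1 : Commute (S.toEquiv : Equiv.Perm Ω) (T.toEquiv : Equiv.Perm Ω) := by
    ext x
    exact h x
  have h2 := h1.zpow_right n
  exact congrArg (fun e : Equiv.Perm Ω => e x) h2.eq

/-- Multiple correlation. -/
noncomputable def corr (μ : Measure Ω) (T : Ω ≃ᵐ Ω) {k : ℕ} (t : Fin k → ℤ)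
    (f : Fin k → Ω → ℝ) : ℝ :=
  ∫ x, ∏ i, f i (pw T (t i) x) ∂μ

def Gap {k : ℕ} (N : ℕ) (t : Fin k → ℤ) : Prop := ∀ i j, i < j → t i + N ≤ t j

/-- bounded measurable functions -/
def BM (f : Ω → ℝ) : Prop := Measurable f ∧ ∃ C, ∀ x, |f x| ≤ C

def FunMix (μ : Measure Ω) (T : Ω ≃ᵐ Ω) {k : ℕ} (f : Fin k → Ω → ℝ) : Prop :=
  ∀ ε : ℝ, 0 < ε → ∃ N : ℕ, ∀ t : Fin k → ℤ, Gap N t →
    |corr μ T t f - ∏ i, ∫ x, f i x ∂μ| ≤ ε

lemma BM.add {f g : Ω → ℝ} (hf : BM f) (hg : BM g) : BM (fun x => f x + g x) := by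
  obtain ⟨hf1, C, hC⟩ := hf
  obtain ⟨hg1, D, hD⟩ := hg
  exact ⟨hf1.add hg1, C + D, fun x => (abs_add_le _ _).trans (add_le_add (hC x) (hD x))⟩

lemma BM.smul {f : Ω → ℝ} (c : ℝ) (hf : BM f) : BM (fun x => c * f x) := by
  obtain ⟨hf1, C, hC⟩ := hf
  exact ⟨hf1.const_mul c, |c| * C, fun x => by
    rw [abs_mul]; exact mul_le_mul_of_nonneg_left (hC x) (abs_nonneg c)⟩

lemma BM.mul {f g : Ω → ℝ} (hf : BM f) (hg : BM g) : BM (fun x => f x * g x) := by
  obtain ⟨hf1, C, hC⟩ := hf
  obtain ⟨hg1, D, hD⟩ := hg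
  refine ⟨hf1.mul hg1, |C| * |D|, fun x => ?_⟩
  rw [abs_mul]
  exact mul_le_mul ((hC x).trans (le_abs_self C)) ((hD x).trans (le_abs_self D))
    (abs_nonneg _) (abs_nonneg _)

lemma BM.const (c : ℝ) : BM (fun _ : Ω => c) := ⟨measurable_const, |c|, fun _ => le_rfl⟩

lemma BM.comp {f : Ω → ℝ} (hf : BM f) {g : Ω → Ω} (hg : Measurable g) : BM (fun x => f (g x)) :=
  ⟨hf.1.comp hg, hf.2.imp fun _ h x => h (g x)⟩

lemma BM.prod {ι : Type*} (s : Finset ι) {f : ι → Ω → ℝ} (hf : ∀ i ∈ s, BM (f i)) :
    BM (fun x => ∏ i ∈ s, f i x) := by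
  classical
  induction s using Finset.induction_on with
  | empty => simpa using BM.const (1:ℝ)
  | insert a s ha ih =>
    simp only [Finset.prod_insert ha]
    exact (hf a (Finset.mem_insert_self a s)).mul
      (ih fun i hi => hf i (Finset.mem_insert_of_mem hi))

lemma BM.indicator {A : Set Ω} (hA : MeasurableSet A) : BM (A.indicator (fun _ => (1:ℝ))) := by
  refine ⟨measurable_const.indicator hA, 1, fun x => ?_⟩
  by_cases h : x ∈ A <;> simp [h]

lemma BM.integrable [IsFiniteMeasure μ] {f : Ω → ℝ} (hf : BM f) : Integrable f μ := by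
  obtain ⟨h1, C, hC⟩ := hf
  exact Integrable.of_bound h1.aestronglyMeasurable C (Eventually.of_forall fun x => by simpa using hC x)

lemma BM.memLp [IsFiniteMeasure μ] {f : Ω → ℝ} (hf : BM f) : MemLp f 2 μ := by
  obtain ⟨h1, C, hC⟩ := hf
  exact MemLp.of_bound h1.aestronglyMeasurable C (Eventually.of_forall fun x => by simpa using hC x)

/-- Induction principle for bounded measurable functions. -/
lemma BM.induction (p : (Ω → ℝ) → Prop)
    (h_ind : ∀ (A : Set Ω), MeasurableSet A → p (A.indicator (fun _ => (1:ℝ))))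
    (h_add : ∀ f g, BM f → BM g → p f → p g → p (fun x => f x + g x))
    (h_smul : ∀ (c : ℝ) f, BM f → p f → p (fun x => c * f x))
    (h_unif : ∀ f, BM f → (∀ ε > (0:ℝ), ∃ g, BM g ∧ p g ∧ ∀ x, |f x - g x| ≤ ε) → p f) :
    ∀ f, BM f → p f := by
  classical
  have h_sum : ∀ (s : Finset ℤ) (c : ℤ → ℝ) (A : ℤ → Set Ω), (∀ j, MeasurableSet (A j)) →
      BM (fun x => ∑ j ∈ s, c j * (A j).indicator (fun _ => (1:ℝ)) x) ∧
      p (fun x => ∑ j ∈ s, c j * (A j).indicator (fun _ => (1:ℝ)) x) := by
    intro s c A hA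
    induction s using Finset.induction_on with
    | empty =>
      constructor
      · simpa using BM.const (0:ℝ)
      · have := h_smul 0 _ (BM.indicator MeasurableSet.empty) (h_ind ∅ MeasurableSet.empty)
        simpa using this
    | insert a s ha ih =>
      have e : (fun x => ∑ j ∈ insert a s, c j * (A j).indicator (fun _ => (1:ℝ)) x)
          = fun x => (c a * (A a).indicator (fun _ => (1:ℝ)) x)
            + ∑ j ∈ s, c j * (A j).indicator (fun _ => (1:ℝ)) x := by
        funext x; rw [Finset.sum_insert ha]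
      rw [e]
      have hb : BM (fun x => c a * (A a).indicator (fun _ => (1:ℝ)) x) :=
        BM.smul _ (BM.indicator (hA a))
      exact ⟨hb.add ih.1, h_add _ _ hb ih.1 (h_smul _ _ (BM.indicator (hA a)) (h_ind _ (hA a))) ih.2⟩
  intro f hf
  apply h_unif f hf
  intro ε hε
  obtain ⟨hfm, C, hC⟩ := hf
  set s : Finset ℤ := Finset.Icc ⌊-C / ε⌋ ⌊C / ε⌋ with hs
  set A : ℤ → Set Ω := fun j => {x | ⌊f x / ε⌋ = j} with hA
  have hAm : ∀ j, MeasurableSet (A j) := fun j =>
    (Int.measurable_floor.comp (hfm.div_const ε)) (measurableSet_singleton j)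
  obtain ⟨hg1, hg2⟩ := h_sum s (fun j => ε * j) A hAm
  refine ⟨_, hg1, hg2, fun x => ?_⟩
  have hx : ⌊f x / ε⌋ ∈ s := by
    rw [hs, Finset.mem_Icc]
    have := abs_le.1 (hC x)
    exact ⟨Int.floor_le_floor (by gcongr; exact this.1), Int.floor_le_floor (by gcongr; exact this.2)⟩
  have hval : ∑ j ∈ s, (ε * (j:ℝ)) * (A j).indicator (fun _ => (1:ℝ)) x = ε * ⌊f x / ε⌋ := by
    rw [Finset.sum_eq_single_of_mem _ hx]
    · simp [hA]
    · intro j _ hj
      have : x ∉ A j := fun h => hj (by simpa [hA] using h.symm)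
      simp [this]
  rw [hval]
  have h1 := Int.floor_le (f x / ε)
  have h2 := (Int.lt_floor_add_one (f x / ε)).le
  have h3 : ε * ⌊f x / ε⌋ ≤ f x := by
    calc ε * ⌊f x / ε⌋ ≤ ε * (f x / ε) := by gcongr
      _ = f x := by field_simp
  have h4 : f x ≤ ε * ⌊f x / ε⌋ + ε := by
    calc f x = ε * (f x / ε) := by field_simp
      _ ≤ ε * (⌊f x / ε⌋ + 1) := by gcongr
      _ = _ := by ring
  rw [abs_le]; constructor <;> linarith

omit [MeasurableSpace Ω] in
lemma prod_update {k : ℕ} (j : Fin k) (f : Fin k → Ω → ℝ) (g : Ω → ℝ) (y : Fin k → Ω) :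
    ∏ i, (Function.update f j g) i (y i) = g (y j) * ∏ i ∈ Finset.univ.erase j, f i (y i) := by
  classical
  rw [← Finset.mul_prod_erase Finset.univ _ (Finset.mem_univ j)]
  congr 1
  · simp
  · apply Finset.prod_congr rfl
    intro i hi
    rw [Function.update_of_ne (Finset.ne_of_mem_erase hi)]

lemma corr_update [IsProbabilityMeasure μ] {k : ℕ} (t : Fin k → ℤ) (j : Fin k)
    (f : Fin k → Ω → ℝ) (g : Ω → ℝ) :
    corr μ T t (Function.update f j g)
      = ∫ x, g (pw T (t j) x) * ∏ i ∈ Finset.univ.erase j, f i (pw T (t i) x) ∂μ := by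
  unfold corr
  congr 1
  funext x
  exact prod_update j f g (fun i => pw T (t i) x)

lemma prod_integral_update {k : ℕ} (j : Fin k) (f : Fin k → Ω → ℝ) (g : Ω → ℝ) :
    ∏ i, ∫ x, (Function.update f j g) i x ∂μ
      = (∫ x, g x ∂μ) * ∏ i ∈ Finset.univ.erase j, ∫ x, f i x ∂μ := by
  classical
  rw [← Finset.mul_prod_erase Finset.univ _ (Finset.mem_univ j)]
  congr 1
  · simp
  · apply Finset.prod_congr rfl
    intro i hi
    rw [Function.update_of_ne (Finset.ne_of_mem_erase hi)]

lemma bm_prod_erase [IsProbabilityMeasure μ] (hT : MeasurePreserving T μ μ) {k : ℕ}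
    (t : Fin k → ℤ) (s : Finset (Fin k)) (f : Fin k → Ω → ℝ) (hf : ∀ i, BM (f i)) :
    BM (fun x => ∏ i ∈ s, f i (pw T (t i) x)) :=
  BM.prod s fun i _ => (hf i).comp (pw_mp hT (t i)).measurable

lemma funMix_of_mixing [IsProbabilityMeasure μ] (hT : MeasurePreserving T μ μ) {k : ℕ}
    (hmix : MixingOfOrder μ T k) (f : Fin k → Ω → ℝ) (hf : ∀ i, BM (f i)) : FunMix μ T f := by
  classical
  suffices H : ∀ (s : Finset (Fin k)) (f : Fin k → Ω → ℝ), (∀ i, BM (f i)) →
      (∀ i ∉ s, ∃ A : Set Ω, MeasurableSet A ∧ f i = A.indicator (fun _ => (1:ℝ))) →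
      FunMix μ T f from H Finset.univ f hf (by simp)
  intro s
  induction s using Finset.induction_on with
  | empty =>
    intro f _ hA ε hε
    choose A hAm hAf using fun i => hA i (Finset.notMem_empty i)
    obtain ⟨N, hN⟩ := hmix A hAm ε hε
    refine ⟨N, fun t ht => ?_⟩
    have e1 : corr μ T t f = μ.real (⋂ i, (pw T (t i)) ⁻¹' (A i)) := by
      unfold corr
      have : (fun x => ∏ i, f i (pw T (t i) x))
          = (⋂ i, (pw T (t i)) ⁻¹' (A i)).indicator (fun _ => (1:ℝ)) := by
        funext x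
        by_cases hx : x ∈ ⋂ i, (pw T (t i)) ⁻¹' (A i)
        · rw [Set.indicator_of_mem hx]
          apply Finset.prod_eq_one
          intro i _
          rw [hAf i]
          have hm : pw T (t i) x ∈ A i := Set.mem_iInter.1 hx i
          exact Set.indicator_of_mem hm _
        · rw [Set.indicator_of_notMem hx]
          rw [Set.mem_iInter, not_forall] at hx
          obtain ⟨i, hi⟩ := hx
          apply Finset.prod_eq_zero (Finset.mem_univ i)
          rw [hAf i]
          have hm : pw T (t i) x ∉ A i := hi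
          exact Set.indicator_of_notMem hm _
      rw [this, integral_indicator (MeasurableSet.iInter fun i => (pw_mp hT (t i)).measurable (hAm i))]
      simp [Measure.real]
    have e2 : ∀ i, ∫ x, f i x ∂μ = μ.real (A i) := by
      intro i
      rw [hAf i, integral_indicator (hAm i)]
      simp [Measure.real]
    rw [e1, Finset.prod_congr rfl fun i _ => e2 i]
    exact (hN t ht).le
  | insert j s hj ih =>
    intro f hf hA
    have main : ∀ g, BM g → FunMix μ T (Function.update f j g) := by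
      have hupd : ∀ g, BM g → ∀ i, BM (Function.update f j g i) := by
        intro g hg i
        by_cases h : i = j
        · subst h; simpa using hg
        · rw [Function.update_of_ne h]; exact hf i
      set R : (Fin k → ℤ) → Ω → ℝ := fun t x => ∏ i ∈ Finset.univ.erase j, f i (pw T (t i) x) with hR
      have hRb : ∀ t, BM (R t) := fun t => bm_prod_erase hT t _ f hf
      obtain ⟨K, hK0, hK⟩ : ∃ K : ℝ, 0 < K ∧ ∀ t x, |R t x| ≤ K := by
        choose C hC using fun i => (hf i).2
        refine ⟨(∏ i ∈ Finset.univ.erase j, |C i|) + 1, by positivity, fun t x => ?_⟩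
        rw [hR]
        simp only [Finset.abs_prod]
        refine (Finset.prod_le_prod (fun i _ => abs_nonneg _)
          (fun i _ => (hC i _).trans (le_abs_self _))).trans (by linarith)
      have hcp : ∀ (g : Ω → ℝ) (t : Fin k → ℤ), BM g → BM (fun x => g (pw T (t j) x) * R t x) :=
        fun g t hg => (hg.comp (pw_mp hT (t j)).measurable).mul (hRb t)
      apply BM.induction (p := fun g => FunMix μ T (Function.update f j g))
      · intro A hAm
        apply ih
        · exact hupd _ (BM.indicator hAm)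
        · intro i hi
          by_cases h : i = j
          · subst h; exact ⟨A, hAm, by simp⟩
          · rw [Function.update_of_ne h]
            exact hA i (by simp [h, hi])
      · intro g h hg hh pg ph ε hε
        obtain ⟨N1, h1⟩ := pg (ε/2) (by positivity)
        obtain ⟨N2, h2⟩ := ph (ε/2) (by positivity)
        refine ⟨max N1 N2, fun t ht => ?_⟩
        have g1 := h1 t (fun i l hil => by have := ht i l hil; push_cast at this; have := le_max_left (N1:ℤ) N2; omega)
        have g2 := h2 t (fun i l hil => by have := ht i l hil; push_cast at this; have := le_max_right (N1:ℤ) N2; omega)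
        rw [corr_update, prod_integral_update] at g1 g2 ⊢
        have e1 : ∫ x, (g (pw T (t j) x) + h (pw T (t j) x)) * ∏ i ∈ Finset.univ.erase j, f i (pw T (t i) x) ∂μ
            = (∫ x, g (pw T (t j) x) * ∏ i ∈ Finset.univ.erase j, f i (pw T (t i) x) ∂μ)
             + ∫ x, h (pw T (t j) x) * ∏ i ∈ Finset.univ.erase j, f i (pw T (t i) x) ∂μ := by
          rw [← integral_add (hcp g t hg).integrable (hcp h t hh).integrable]
          congr 1; funext x; ring
        have e2 : ∫ x, (g x + h x) ∂μ = (∫ x, g x ∂μ) + ∫ x, h x ∂μ :=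
          integral_add hg.integrable hh.integrable
        rw [e1, e2]
        rw [abs_le] at g1 g2 ⊢
        constructor <;> nlinarith [g1.1, g1.2, g2.1, g2.2]
      · intro c g hg pg ε hε
        obtain ⟨N1, h1⟩ := pg (ε/(|c|+1)) (by positivity)
        refine ⟨N1, fun t ht => ?_⟩
        have g1 := h1 t ht
        rw [corr_update, prod_integral_update] at g1 ⊢
        have e1 : ∫ x, (c * g (pw T (t j) x)) * ∏ i ∈ Finset.univ.erase j, f i (pw T (t i) x) ∂μ
            = c * ∫ x, g (pw T (t j) x) * ∏ i ∈ Finset.univ.erase j, f i (pw T (t i) x) ∂μ := by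
          rw [← integral_const_mul]
          congr 1; funext x; ring
        rw [e1, integral_const_mul, mul_assoc, ← mul_sub, abs_mul]
        calc |c| * _ ≤ (|c|+1) * (ε/(|c|+1)) := by
              apply mul_le_mul _ g1 (abs_nonneg _) (by positivity)
              linarith
          _ = ε := by field_simp
      · intro g hg happ ε hε
        set P : ℝ := |∏ i ∈ Finset.univ.erase j, ∫ x, f i x ∂μ| with hP
        set δ : ℝ := ε / (2 * (K + P + 1)) with hδ
        have hP0 : 0 ≤ P := abs_nonneg _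
        have hδ0 : 0 < δ := by positivity
        obtain ⟨g', hg', pg', hgg⟩ := happ δ hδ0
        obtain ⟨N1, h1⟩ := pg' (ε/2) (by positivity)
        refine ⟨N1, fun t ht => ?_⟩
        have g1 := h1 t ht
        rw [corr_update, prod_integral_update] at g1 ⊢
        have e1 : |(∫ x, g (pw T (t j) x) * R t x ∂μ) - ∫ x, g' (pw T (t j) x) * R t x ∂μ| ≤ δ * K := by
          rw [← integral_sub (hcp g t hg).integrable (hcp g' t hg').integrable]
          have hb : ∀ x, ‖g (pw T (t j) x) * R t x - g' (pw T (t j) x) * R t x‖ ≤ δ * K := by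
            intro x
            rw [← sub_mul, Real.norm_eq_abs, abs_mul]
            exact mul_le_mul (hgg _) (hK t x) (abs_nonneg _) hδ0.le
          have := norm_integral_le_of_norm_le_const (μ := μ) (Eventually.of_forall hb)
          simpa using this
        have e2 : |(∫ x, g x ∂μ) - ∫ x, g' x ∂μ| ≤ δ := by
          rw [← integral_sub hg.integrable hg'.integrable]
          have hb : ∀ x, ‖g x - g' x‖ ≤ δ := fun x => by simpa using hgg x
          have := norm_integral_le_of_norm_le_const (μ := μ) (Eventually.of_forall hb)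
          simpa using this
        have e3 : |((∫ x, g x ∂μ) - ∫ x, g' x ∂μ) * ∏ i ∈ Finset.univ.erase j, ∫ x, f i x ∂μ| ≤ δ * P := by
          rw [abs_mul]; exact mul_le_mul e2 le_rfl (abs_nonneg _) hδ0.le
        have e4 : δ * K + δ * P ≤ ε / 2 := by
          have : δ * (2 * (K + P + 1)) = ε := by rw [hδ]; field_simp
          nlinarith
        simp only [hR] at e1
        rw [abs_le] at g1 e1 e3 ⊢
        constructor <;> nlinarith [g1.1, g1.2, e1.1, e1.2, e3.1, e3.2]
    have := main (f j) (hf j)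
    rwa [Function.update_eq_self] at this

end Vale.Agent.P102
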