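import Mathlib

open Filter Topology

namespace Vale.Agent.P102

variable {V : Type*} [AddCommGroup V] [Module ℝ V]

/-- Quasi-minimisers for a positive semidefinite symmetric form. -/
lemma quasi_min (B : V →ₗ[ℝ] V →ₗ[ℝ] ℝ) (hs : ∀ x y, B x y = B y x)
    (hp : ∀ x, 0 ≤ B x x) (W : Submodule ℝ V) (x : V) {ε : ℝ} (hε : 0 < ε) :
    ∃ w ∈ W, ∀ v ∈ W, (B v (x - w)) ^ 2 ≤ ε * B v v := by
  classical
  set A : Set ℝ := (fun w : V => B (x - w) (x - w)) '' (W : Set V) with hA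
  have hne : A.Nonempty := ⟨_, 0, W.zero_mem, rfl⟩
  have hbdd : BddBelow A := ⟨0, by rintro _ ⟨w, -, rfl⟩; exact hp _⟩
  obtain ⟨a, ⟨w, hw, rfl⟩, hlt⟩ := exists_lt_of_csInf_lt hne (lt_add_of_pos_right (sInf A) hε)
  refine ⟨w, hw, fun v hv => ?_⟩
  have key : ∀ s : ℝ, 0 ≤ B v v * (s * s) + (-2 * B v (x - w)) * s + ε := by
    intro s
    have h1 : sInf A ≤ B (x - (w + s • v)) (x - (w + s • v)) :=
      csInf_le hbdd ⟨_, W.add_mem hw (W.smul_mem s hv), rfl⟩
    have h2 : B (x - (w + s • v)) (x - (w + s • v))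
        = B (x - w) (x - w) - 2 * s * B v (x - w) + s * s * B v v := by
      have : x - (w + s • v) = (x - w) - s • v := by abel
      rw [this]
      simp only [map_sub, LinearMap.sub_apply, map_smul, LinearMap.smul_apply, smul_eq_mul]
      have e1 := hs x v
      have e2 := hs w v
      rw [e1, e2]
      ring
    have h3 : B (x - w) (x - w) < sInf A + ε := hlt
    rw [h2] at h1
    nlinarith [h1, h3]
  have hd := discrim_le_zero key
  unfold discrim at hd
  nlinarith [hd]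

/-- Joint weak continuity: inner products against elements of `W` control those against any `x`. -/
lemma weak_lim {ι : Type*} (l : Filter ι) (B : V →ₗ[ℝ] V →ₗ[ℝ] ℝ) (hs : ∀ x y, B x y = B y x)
    (hp : ∀ x, 0 ≤ B x x) (W : Submodule ℝ V) (x : V) (w : ι → V) (w₀ : V)
    (hw : ∀ n, w n ∈ W) (hw₀ : w₀ ∈ W) (C : ℝ) (hC : ∀ n, B (w n) (w n) ≤ C)
    (hlim : ∀ v ∈ W, Tendsto (fun n => B (w n) v) l (𝓝 (B w₀ v))) :
    Tendsto (fun n => B (w n) x) l (𝓝 (B w₀ x)) := by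
  set D : ℝ := max C (B w₀ w₀) + 1 with hD
  have hD0 : 0 < D := by
    have : 0 ≤ max C (B w₀ w₀) := le_max_of_le_right (hp _)
    linarith
  have hCD : C ≤ D := by have := le_max_left C (B w₀ w₀); linarith
  have h0D : B w₀ w₀ ≤ D := by have := le_max_right C (B w₀ w₀); linarith
  rw [Metric.tendsto_nhds]
  intro ε hε
  obtain ⟨v, hv, hvq⟩ := quasi_min B hs hp W x (ε := (ε / 4) ^ 2 / D) (by positivity)
  have hb : ∀ u ∈ W, B u u ≤ D → |B u (x - v)| ≤ ε / 4 := by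
    intro u hu huD
    have h1 := hvq u hu
    have h2 : (ε / 4) ^ 2 / D * B u u ≤ (ε / 4) ^ 2 := by
      calc (ε / 4) ^ 2 / D * B u u ≤ (ε / 4) ^ 2 / D * D := by gcongr
        _ = (ε / 4) ^ 2 := by field_simp
    have h3 : (B u (x - v)) ^ 2 ≤ (ε / 4) ^ 2 := h1.trans h2
    exact abs_le_of_sq_le_sq h3 (by positivity)
  filter_upwards [(Metric.tendsto_nhds.1 (hlim v hv)) (ε / 4) (by positivity)] with n e3
  have e1 := hb (w n) (hw n) ((hC n).trans hCD)
  have e2 := hb w₀ hw₀ h0D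
  rw [Real.dist_eq] at e3 ⊢
  have : B (w n) x - B w₀ x = B (w n) (x - v) + (B (w n) v - B w₀ v) - B w₀ (x - v) := by
    simp only [map_sub]; ring
  rw [this]
  have f1 := abs_le.1 e1
  have f2 := abs_le.1 e2
  have f3 := abs_lt.1 e3
  rw [abs_lt]
  constructor <;> linarith [f1.1, f1.2, f2.1, f2.2, f3.1, f3.2]

end Vale.Agent.P102
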