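import Mathlib
import Vale.Agent.Lib.P102.Form

open Filter Topology

namespace Vale.Agent.P102

variable {E : Type*} [NormedAddCommGroup E] [InnerProductSpace ℝ E]

/-- bounded sequences -/
def BSeq (E : Type*) [NormedAddCommGroup E] [InnerProductSpace ℝ E] : Submodule ℝ (ℕ → E) where
  carrier := {x | ∃ C, ∀ n, ‖x n‖ ≤ C}
  zero_mem' := ⟨0, fun n => by simp⟩
  add_mem' := by
    rintro x y ⟨C, hC⟩ ⟨D, hD⟩
    exact ⟨C + D, fun n => (norm_add_le _ _).trans (add_le_add (hC n) (hD n))⟩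
  smul_mem' := by
    rintro c x ⟨C, hC⟩
    exact ⟨|c| * C, fun n => by
      rw [Pi.smul_apply, norm_smul, Real.norm_eq_abs]
      exact mul_le_mul_of_nonneg_left (hC n) (abs_nonneg c)⟩

lemma tendsto_ul (𝒰 : Ultrafilter ℕ) (u : ℕ → ℝ) (C : ℝ) (h : ∀ n, |u n| ≤ C) :
    Tendsto u 𝒰 (𝓝 (limUnder (𝒰 : Filter ℕ) u)) := by
  apply tendsto_nhds_limUnder
  have hc : IsCompact (Set.Icc (-C) C) := isCompact_Icc
  have hle : ((𝒰.map u : Ultrafilter ℝ) : Filter ℝ) ≤ 𝓟 (Set.Icc (-C) C) := by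
    rw [Filter.le_principal_iff, Ultrafilter.coe_map, Filter.mem_map]
    exact Filter.univ_mem' fun n => abs_le.1 (h n)
  obtain ⟨a, -, ha⟩ := hc.ultrafilter_le_nhds _ hle
  exact ⟨a, ha⟩

lemma inner_bdd (x y : BSeq E) : ∃ C, ∀ n, |inner ℝ (x.1 n) (y.1 n)| ≤ C := by
  obtain ⟨C, hC⟩ := x.2
  obtain ⟨D, hD⟩ := y.2
  refine ⟨C * D, fun n => (abs_real_inner_le_norm _ _).trans ?_⟩
  exact mul_le_mul (hC n) (hD n) (norm_nonneg _) ((norm_nonneg _).trans (hC n))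

noncomputable def form0 (𝒰 : Ultrafilter ℕ) (x y : BSeq E) : ℝ :=
  limUnder (𝒰 : Filter ℕ) (fun n => inner ℝ (x.1 n) (y.1 n))

lemma form0_tendsto (𝒰 : Ultrafilter ℕ) (x y : BSeq E) :
    Tendsto (fun n => inner ℝ (x.1 n) (y.1 n)) 𝒰 (𝓝 (form0 𝒰 x y)) := by
  obtain ⟨C, hC⟩ := inner_bdd x y
  exact tendsto_ul 𝒰 _ C hC

lemma form0_eq (𝒰 : Ultrafilter ℕ) (x y : BSeq E) {a : ℝ}
    (h : Tendsto (fun n => inner ℝ (x.1 n) (y.1 n)) 𝒰 (𝓝 a)) : form0 𝒰 x y = a :=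
  tendsto_nhds_unique (form0_tendsto 𝒰 x y) h

/-- ultralimit of inner products -/
noncomputable def form (𝒰 : Ultrafilter ℕ) : BSeq E →ₗ[ℝ] BSeq E →ₗ[ℝ] ℝ :=
  LinearMap.mk₂ ℝ (form0 𝒰)
    (fun x y z => form0_eq 𝒰 _ _ (by
      have := (form0_tendsto 𝒰 x z).add (form0_tendsto 𝒰 y z)
      refine this.congr fun n => ?_
      change _ = inner ℝ (x.1 n + y.1 n) (z.1 n)
      rw [inner_add_left]))
    (fun c x z => form0_eq 𝒰 _ _ (by
      have := (form0_tendsto 𝒰 x z).const_mul c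
      refine this.congr fun n => ?_
      change _ = inner ℝ (c • x.1 n) (z.1 n)
      rw [real_inner_smul_left]))
    (fun x y z => form0_eq 𝒰 _ _ (by
      have := (form0_tendsto 𝒰 x y).add (form0_tendsto 𝒰 x z)
      refine this.congr fun n => ?_
      change _ = inner ℝ (x.1 n) (y.1 n + z.1 n)
      rw [inner_add_right]))
    (fun c x z => form0_eq 𝒰 _ _ (by
      have := (form0_tendsto 𝒰 x z).const_mul c
      refine this.congr fun n => ?_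
      change _ = inner ℝ (x.1 n) (c • z.1 n)
      rw [real_inner_smul_right]))

lemma form_apply (𝒰 : Ultrafilter ℕ) (x y : BSeq E) : form 𝒰 x y = form0 𝒰 x y := rfl

lemma form_tendsto (𝒰 : Ultrafilter ℕ) (x y : BSeq E) :
    Tendsto (fun n => inner ℝ (x.1 n) (y.1 n)) 𝒰 (𝓝 (form 𝒰 x y)) := form0_tendsto 𝒰 x y

lemma form_eq (𝒰 : Ultrafilter ℕ) (x y : BSeq E) {a : ℝ}
    (h : Tendsto (fun n => inner ℝ (x.1 n) (y.1 n)) 𝒰 (𝓝 a)) : form 𝒰 x y = a :=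
  form0_eq 𝒰 x y h

lemma form_symm (𝒰 : Ultrafilter ℕ) (x y : BSeq E) : form 𝒰 x y = form 𝒰 y x := by
  apply form_eq
  refine (form_tendsto 𝒰 y x).congr fun n => real_inner_comm _ _

lemma form_nonneg (𝒰 : Ultrafilter ℕ) (x : BSeq E) : 0 ≤ form 𝒰 x x := by
  refine ge_of_tendsto (form_tendsto 𝒰 x x) (Eventually.of_forall fun n => real_inner_self_nonneg)

lemma form_le (𝒰 : Ultrafilter ℕ) (x y : BSeq E) {C D : ℝ} (hC : ∀ n, ‖x.1 n‖ ≤ C)
    (hD : ∀ n, ‖y.1 n‖ ≤ D) : |form 𝒰 x y| ≤ C * D := by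
  refine le_of_tendsto ((form_tendsto 𝒰 x y).abs) (Eventually.of_forall fun n => ?_)
  refine (abs_real_inner_le_norm _ _).trans ?_
  exact mul_le_mul (hC n) (hD n) (norm_nonneg _) ((norm_nonneg _).trans (hC n))

end Vale.Agent.P102
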