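import Mathlib
import Vale.Agent.Lib.P102.Basic
import Vale.Agent.Lib.P102.Ultra

open MeasureTheory Filter Topology

namespace Vale.Agent.P102

variable {Ω : Type*} [MeasurableSpace Ω] {μ : Measure Ω} [IsProbabilityMeasure μ] {T : Ω ≃ᵐ Ω}

def EB (F : Lp ℝ 2 μ) : Prop := ∃ C, ∀ᵐ x ∂μ, |F x| ≤ C

omit [IsProbabilityMeasure μ] in
lemma inner_eq (F G : Lp ℝ 2 μ) : inner ℝ F G = ∫ x, F x * G x ∂μ := by
  rw [MeasureTheory.L2.inner_def]
  congr 1
  funext x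
  simp [mul_comm]

lemma exists_bm (F : Lp ℝ 2 μ) {C : ℝ} (h : ∀ᵐ x ∂μ, |F x| ≤ C) :
    ∃ g : Ω → ℝ, Measurable g ∧ (∀ x, |g x| ≤ C) ∧ F =ᵐ[μ] g := by
  have hC : 0 ≤ C := by
    obtain ⟨x, hx⟩ := h.exists
    exact (abs_nonneg _).trans hx
  refine ⟨fun x => max (-C) (min C (F x)), ?_, ?_, ?_⟩
  · exact measurable_const.max (measurable_const.min (Lp.stronglyMeasurable F).measurable)
  · intro x
    rw [abs_le]
    exact ⟨le_max_left _ _, max_le (by linarith) (min_le_left _ _)⟩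
  · filter_upwards [h] with x hx
    rw [abs_le] at hx
    rw [min_eq_right hx.2, max_eq_right hx.1]

omit [IsProbabilityMeasure μ] in
lemma corr_congr (hT : MeasurePreserving T μ μ) {k : ℕ} (t : Fin k → ℤ) {f g : Fin k → Ω → ℝ}
    (h : ∀ i, f i =ᵐ[μ] g i) : corr μ T t f = corr μ T t g := by
  unfold corr
  apply integral_congr_ae
  have : ∀ i, ∀ᵐ x ∂μ, f i (pw T (t i) x) = g i (pw T (t i) x) := fun i =>
    (pw_mp hT (t i)).quasiMeasurePreserving.ae (h i)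
  filter_upwards [ae_all_iff.2 this] with x hx
  exact Finset.prod_congr rfl fun i _ => hx i

/-- product of translates -/
noncomputable def tf (T : Ω ≃ᵐ Ω) {m : ℕ} (t : Fin m → ℤ) (F : Fin m → Lp ℝ 2 μ) : Ω → ℝ :=
  fun x => ∏ j, F j (pw T (t j) x)

omit [IsProbabilityMeasure μ] in
lemma tf_meas (hT : MeasurePreserving T μ μ) {m : ℕ} (t : Fin m → ℤ) (F : Fin m → Lp ℝ 2 μ) :
    Measurable (tf T t F) := by
  unfold tf
  exact Finset.measurable_prod _ fun j _ =>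
    (Lp.stronglyMeasurable (F j)).measurable.comp (pw_mp hT (t j)).measurable

omit [IsProbabilityMeasure μ] in
lemma tf_bound (hT : MeasurePreserving T μ μ) {m : ℕ} (t : Fin m → ℤ) (F : Fin m → Lp ℝ 2 μ)
    {C : Fin m → ℝ} (hC : ∀ j, ∀ᵐ x ∂μ, |F j x| ≤ C j) :
    ∀ᵐ x ∂μ, ‖tf T t F x‖ ≤ ∏ j, |C j| := by
  have : ∀ j, ∀ᵐ x ∂μ, |F j (pw T (t j) x)| ≤ C j := fun j =>
    (pw_mp hT (t j)).quasiMeasurePreserving.ae (hC j)
  filter_upwards [ae_all_iff.2 this] with x hx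
  unfold tf
  rw [Real.norm_eq_abs, Finset.abs_prod]
  exact Finset.prod_le_prod (fun i _ => abs_nonneg _) (fun i _ => (hx i).trans (le_abs_self _))

lemma tf_memLp (hT : MeasurePreserving T μ μ) {m : ℕ} (t : Fin m → ℤ) (F : Fin m → Lp ℝ 2 μ)
    (hF : ∀ j, EB (F j)) : MemLp (tf T t F) 2 μ := by
  choose C hC using hF
  exact MemLp.of_bound (tf_meas hT t F).aestronglyMeasurable _ (tf_bound hT t F hC)

/-- `L²` class of a product of translates -/
noncomputable def tv (hT : MeasurePreserving T μ μ) {m : ℕ} (t : Fin m → ℤ)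
    (F : Fin m → Lp ℝ 2 μ) (hF : ∀ j, EB (F j)) : Lp ℝ 2 μ := (tf_memLp hT t F hF).toLp _

lemma tv_coe (hT : MeasurePreserving T μ μ) {m : ℕ} (t : Fin m → ℤ)
    (F : Fin m → Lp ℝ 2 μ) (hF : ∀ j, EB (F j)) : tv hT t F hF =ᵐ[μ] tf T t F :=
  MemLp.coeFn_toLp _

lemma tv_norm_le (hT : MeasurePreserving T μ μ) {m : ℕ} (t : Fin m → ℤ)
    (F : Fin m → Lp ℝ 2 μ) (hF : ∀ j, EB (F j)) {C : Fin m → ℝ}
    (hC : ∀ j, ∀ᵐ x ∂μ, |F j x| ≤ C j) : ‖tv hT t F hF‖ ≤ ∏ j, |C j| := by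
  have h := Lp.norm_le_of_ae_bound (f := tv hT t F hF) (C := ∏ j, |C j|) (by positivity) (by
    filter_upwards [tv_coe hT t F hF, tf_bound hT t F hC] with x h1 h2
    rwa [h1])
  have e : measureUnivNNReal μ = 1 := by simp [measureUnivNNReal]
  simpa [e] using h

/-- Koopman operator of a power of `T` -/
noncomputable def koop (hT : MeasurePreserving T μ μ) (n : ℤ) (G : Lp ℝ 2 μ) : Lp ℝ 2 μ :=
  Lp.compMeasurePreserving (pw T n) (pw_mp hT n) G

omit [IsProbabilityMeasure μ] in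
lemma koop_norm (hT : MeasurePreserving T μ μ) (n : ℤ) (G : Lp ℝ 2 μ) :
    ‖koop hT n G‖ = ‖G‖ := Lp.norm_compMeasurePreserving _ _

omit [IsProbabilityMeasure μ] in
lemma cmp_inner {S : Ω → Ω} (hS : MeasurePreserving S μ μ) (G H : Lp ℝ 2 μ) :
    inner ℝ (Lp.compMeasurePreserving S hS G) (Lp.compMeasurePreserving S hS H) = inner ℝ G H :=
  (Lp.compMeasurePreservingₗᵢ ℝ S hS).inner_map_map G H

lemma inner_tv_tv (hT : MeasurePreserving T μ μ) {m : ℕ} (t : Fin m → ℤ)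
    (F G : Fin m → Lp ℝ 2 μ) (hF : ∀ j, EB (F j)) (hG : ∀ j, EB (G j)) :
    inner ℝ (tv hT t F hF) (tv hT t G hG) = corr μ T t (fun j x => F j x * G j x) := by
  rw [inner_eq]
  unfold corr
  apply integral_congr_ae
  filter_upwards [tv_coe hT t F hF, tv_coe hT t G hG] with x h1 h2
  rw [h1, h2]
  simp only [tf, Finset.prod_mul_distrib]

lemma inner_tv_koop (hT : MeasurePreserving T μ μ) {m : ℕ} (i : Fin (m+1)) (t : Fin (m+1) → ℤ)
    (F : Fin (m+1) → Lp ℝ 2 μ) (hF : ∀ j, EB (F (i.succAbove j))) :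
    inner ℝ (tv hT (fun j => t (i.succAbove j)) (fun j => F (i.succAbove j)) hF)
      (koop hT (t i) (F i)) = corr μ T t (fun i => ⇑(F i)) := by
  rw [inner_eq]
  unfold corr
  apply integral_congr_ae
  filter_upwards [tv_coe hT (fun j => t (i.succAbove j)) (fun j => F (i.succAbove j)) hF,
    Lp.coeFn_compMeasurePreserving (F i) (pw_mp hT (t i))] with x h1 h2
  rw [h1, koop, h2, Fin.prod_univ_succAbove _ i, mul_comm]
  rfl

lemma EB.bm {F : Lp ℝ 2 μ} (hF : EB F) : ∃ g : Ω → ℝ, BM g ∧ F =ᵐ[μ] g := by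
  obtain ⟨C, hC⟩ := hF
  obtain ⟨g, h1, h2, h3⟩ := exists_bm F hC
  exact ⟨g, ⟨h1, C, h2⟩, h3⟩

omit [IsProbabilityMeasure μ] in
lemma EB.cmp {F : Lp ℝ 2 μ} (hF : EB F) {S : Ω → Ω} (hS : MeasurePreserving S μ μ) :
    EB (Lp.compMeasurePreserving S hS F) := by
  obtain ⟨C, hC⟩ := hF
  refine ⟨C, ?_⟩
  filter_upwards [Lp.coeFn_compMeasurePreserving F hS, hS.quasiMeasurePreserving.ae hC] with x h1 h2
  rw [h1]
  exact h2

/-- Koopman operator of `S` applied to a product of translates, when `S` commutes with `T`. -/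
lemma cmp_tv (hT : MeasurePreserving T μ μ) {S : Ω ≃ᵐ Ω} (hS : MeasurePreserving S μ μ)
    (hc : ∀ x, S (T x) = T (S x)) {m : ℕ} (t : Fin m → ℤ)
    (F : Fin m → Lp ℝ 2 μ) (hF : ∀ j, EB (F j)) :
    Lp.compMeasurePreserving S hS (tv hT t F hF)
      = tv hT t (fun j => Lp.compMeasurePreserving S hS (F j)) (fun j => (hF j).cmp hS) := by
  apply Lp.ext
  have h2 : ∀ᵐ x ∂μ, tv hT t F hF (S x) = tf T t F (S x) :=
    hS.quasiMeasurePreserving.ae (tv_coe hT t F hF)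
  have h4 : ∀ j, ∀ᵐ x ∂μ, (Lp.compMeasurePreserving S hS (F j)) (pw T (t j) x)
      = F j (S (pw T (t j) x)) := fun j =>
    (pw_mp hT (t j)).quasiMeasurePreserving.ae (Lp.coeFn_compMeasurePreserving (F j) hS)
  filter_upwards [Lp.coeFn_compMeasurePreserving (tv hT t F hF) hS, h2,
    tv_coe hT t (fun j => Lp.compMeasurePreserving S hS (F j)) (fun j => (hF j).cmp hS),
    ae_all_iff.2 h4] with x h1 h2 h3 h4
  rw [h1, h3]
  simp only [Function.comp, tf, h2, h4]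
  exact Finset.prod_congr rfl fun j _ => by rw [pw_comm hc]

omit [IsProbabilityMeasure μ] in
lemma cmp_koop (hT : MeasurePreserving T μ μ) {S : Ω ≃ᵐ Ω} (hS : MeasurePreserving S μ μ)
    (hc : ∀ x, S (T x) = T (S x)) (n : ℤ) (G : Lp ℝ 2 μ) :
    Lp.compMeasurePreserving S hS (koop hT n G)
      = koop hT n (Lp.compMeasurePreserving S hS G) := by
  apply Lp.ext
  have h2 : ∀ᵐ x ∂μ, koop hT n G (S x) = G (pw T n (S x)) :=
    hS.quasiMeasurePreserving.ae (Lp.coeFn_compMeasurePreserving G (pw_mp hT n))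
  have h4 : ∀ᵐ x ∂μ, (Lp.compMeasurePreserving S hS G) (pw T n x) = G (S (pw T n x)) :=
    (pw_mp hT n).quasiMeasurePreserving.ae (Lp.coeFn_compMeasurePreserving G hS)
  filter_upwards [Lp.coeFn_compMeasurePreserving (koop hT n G) hS, h2,
    Lp.coeFn_compMeasurePreserving (Lp.compMeasurePreserving S hS G) (pw_mp hT n), h4]
    with x h1 h2 h3 h4
  rw [h1]
  unfold koop at *
  rw [h3]
  simp only [Function.comp] at *
  rw [h2, h4, pw_comm hc]

end Vale.Agent.P102
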