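import Mathlib
import Vale.Agent.Lib.P102.LTwo

open MeasureTheory Filter Topology

namespace Vale.Agent.P102

variable {Ω : Type*} [MeasurableSpace Ω] {μ : Measure Ω} [IsProbabilityMeasure μ] {T : Ω ≃ᵐ Ω}

/-- weak limit, along a filter, of Koopman operators of measure-preserving maps -/
def WL (l : Filter ℕ) (S : ℕ → Ω ≃ᵐ Ω) (hS : ∀ n, MeasurePreserving (S n) μ μ)
    (Q : Lp ℝ 2 μ →L[ℝ] Lp ℝ 2 μ) : Prop :=
  ∀ f g : Lp ℝ 2 μ, Tendsto (fun n => inner ℝ (Lp.compMeasurePreserving (S n) (hS n) f) g)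
      l (𝓝 (inner ℝ (Q f) g))

variable {l : Filter ℕ} [l.NeBot]
variable {S : ℕ → Ω ≃ᵐ Ω} {hS : ∀ n, MeasurePreserving (S n) μ μ} {Q : Lp ℝ 2 μ →L[ℝ] Lp ℝ 2 μ}

omit [IsProbabilityMeasure μ] in
lemma cmp_cmp_symm (R : Ω ≃ᵐ Ω) (hR : MeasurePreserving R μ μ) (f : Lp ℝ 2 μ) :
    Lp.compMeasurePreserving R hR (Lp.compMeasurePreserving R.symm (hR.symm R) f) = f := by
  rw [← Lp.compMeasurePreserving_comp_apply f (hR.symm R) hR]
  have : ∀ (g : Ω → Ω) (hg : MeasurePreserving g μ μ), g = id → Lp.compMeasurePreserving g hg f = f := by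
    intro g hg h
    subst h
    exact Lp.compMeasurePreserving_id_apply f
  exact this _ _ (by funext x; simp)

omit [IsProbabilityMeasure μ] [l.NeBot] in
lemma WL.adj (h : WL l S hS Q) :
    WL l (fun n => (S n).symm) (fun n => (hS n).symm (S n)) (ContinuousLinearMap.adjoint Q) := by
  intro f g
  rw [ContinuousLinearMap.adjoint_inner_left, real_inner_comm]
  refine (h g f).congr fun n => ?_
  rw [real_inner_comm]
  conv_lhs => rw [← cmp_cmp_symm (S n) (hS n) f]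
  exact cmp_inner (hS n) _ _

omit [IsProbabilityMeasure μ] in
lemma WL.norm_le (h : WL l S hS Q) (f : Lp ℝ 2 μ) : ‖Q f‖ ≤ ‖f‖ := by
  have h1 : inner ℝ (Q f) (Q f) ≤ ‖f‖ * ‖Q f‖ := by
    refine le_of_tendsto (h f (Q f)) (Eventually.of_forall fun n => ?_)
    refine (real_inner_le_norm _ _).trans ?_
    rw [Lp.norm_compMeasurePreserving]
  rw [real_inner_self_eq_norm_sq] at h1
  by_contra hc
  push Not at hc
  nlinarith [norm_nonneg f]

omit [l.NeBot] in
lemma WL.setIntegral (h : WL l S hS Q) (f : Lp ℝ 2 μ) {A : Set Ω} (hA : MeasurableSet A) :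
    Tendsto (fun n => ∫ x in A, (Lp.compMeasurePreserving (S n) (hS n) f) x ∂μ) l
      (𝓝 (∫ x in A, Q f x ∂μ)) := by
  have h1 := h f (indicatorConstLp 2 hA (measure_ne_top μ A) (1:ℝ))
  simp only [real_inner_comm, L2.inner_indicatorConstLp_one hA (measure_ne_top μ A)] at h1
  have e : ∀ F : Lp ℝ 2 μ, inner ℝ F (indicatorConstLp 2 hA (measure_ne_top μ A) (1:ℝ))
      = ∫ x in A, F x ∂μ := fun F => by
    rw [real_inner_comm, L2.inner_indicatorConstLp_one hA (measure_ne_top μ A)]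
  simpa only [e] using h f (indicatorConstLp 2 hA (measure_ne_top μ A) (1:ℝ))

lemma lp_integrable (F : Lp ℝ 2 μ) : Integrable F μ :=
  (Lp.memLp F).integrable (by norm_num)

lemma WL.le (h : WL l S hS Q) {f : Lp ℝ 2 μ} {C : ℝ} (hC : ∀ᵐ x ∂μ, f x ≤ C) :
    ∀ᵐ x ∂μ, Q f x ≤ C := by
  have key := ae_le_of_forall_setIntegral_le (f := Q f) (g := fun _ => C) (μ := μ)
    (lp_integrable _) (integrable_const C) ?_
  · exact key
  · intro A hA _
    refine le_of_tendsto (h.setIntegral f hA) (Eventually.of_forall fun n => ?_)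
    refine integral_mono_ae (lp_integrable _).integrableOn (integrable_const C).integrableOn ?_
    apply ae_restrict_of_ae
    filter_upwards [Lp.coeFn_compMeasurePreserving f (hS n),
      (hS n).quasiMeasurePreserving.ae hC] with x h1 h2
    rw [h1]; exact h2

lemma WL.bound (h : WL l S hS Q) {f : Lp ℝ 2 μ} {C : ℝ} (hC : ∀ᵐ x ∂μ, |f x| ≤ C) :
    ∀ᵐ x ∂μ, |Q f x| ≤ C := by
  have h1 : ∀ᵐ x ∂μ, f x ≤ C := hC.mono fun x hx => (abs_le.1 hx).2
  have h2 : ∀ᵐ x ∂μ, (-f : Lp ℝ 2 μ) x ≤ C := by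
    filter_upwards [hC, Lp.coeFn_neg f] with x hx h3
    rw [h3, Pi.neg_apply]
    linarith [(abs_le.1 hx).1]
  filter_upwards [h.le h1, h.le h2, Lp.coeFn_neg (Q f)] with x h3 h4 h5
  rw [map_neg, h5, Pi.neg_apply] at h4
  rw [abs_le]
  constructor <;> linarith

lemma WL.eb (h : WL l S hS Q) {f : Lp ℝ 2 μ} (hf : EB f) : EB (Q f) :=
  hf.imp fun _ => h.bound

lemma WL.integral (h : WL l S hS Q) (f : Lp ℝ 2 μ) : ∫ x, Q f x ∂μ = ∫ x, f x ∂μ := by
  have h1 := h.setIntegral f MeasurableSet.univ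
  simp only [Measure.restrict_univ] at h1
  have e : ∀ n, ∫ x, (Lp.compMeasurePreserving (S n) (hS n) f) x ∂μ = ∫ x, f x ∂μ := by
    intro n
    rw [integral_congr_ae (Lp.coeFn_compMeasurePreserving f (hS n))]
    exact (hS n).integral_comp (S n).measurableEmbedding _
  simp only [e] at h1
  exact tendsto_nhds_unique h1 tendsto_const_nhds

end Vale.Agent.P102
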