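import Mathlib
import Vale.Agent.Lib.P102.Weak

open MeasureTheory Filter Topology

namespace Vale.Agent.P102

variable {Ω : Type*} [MeasurableSpace Ω] {μ : Measure Ω} [IsProbabilityMeasure μ] {T : Ω ≃ᵐ Ω}
variable {m : ℕ}

/-- sequence of translates of one function -/
noncomputable def sg (hT : MeasurePreserving T μ μ) (t : ℕ → Fin (m+1) → ℤ) (i : Fin (m+1)) :
    Lp ℝ 2 μ →ₗ[ℝ] BSeq (Lp ℝ 2 μ) where
  toFun G := ⟨fun n => koop hT (t n i) G, ‖G‖, fun n => (koop_norm hT _ G).le⟩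
  map_add' G H := by
    apply Subtype.ext
    funext n
    exact (Lp.compMeasurePreserving (pw T (t n i)) (pw_mp hT _)).map_add G H
  map_smul' c G := by
    apply Subtype.ext
    funext n
    exact (Lp.compMeasurePreservingₗ ℝ (pw T (t n i)) (pw_mp hT _)).map_smul c G

/-- sequence of products of translates -/
noncomputable def ts (hT : MeasurePreserving T μ μ) (t : ℕ → Fin (m+1) → ℤ) (i : Fin (m+1))
    (F : Fin m → Lp ℝ 2 μ) (hF : ∀ j, EB (F j)) : BSeq (Lp ℝ 2 μ) :=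
  ⟨fun n => tv hT (fun j => t n (i.succAbove j)) F hF, by
    have h := hF
    choose C hC using h
    exact ⟨∏ j, |C j|, fun n => tv_norm_le hT _ F _ hC⟩⟩

lemma ts_congr (hT : MeasurePreserving T μ μ) (t : ℕ → Fin (m+1) → ℤ) (i : Fin (m+1))
    {F F' : Fin m → Lp ℝ 2 μ} (hF : ∀ j, EB (F j)) (hF' : ∀ j, EB (F' j)) (h : F = F') :
    ts hT t i F hF = ts hT t i F' hF' := by
  subst h; rfl

omit [IsProbabilityMeasure μ] in
lemma form_sg_sg (𝒰 : Ultrafilter ℕ) (hT : MeasurePreserving T μ μ) (t : ℕ → Fin (m+1) → ℤ)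
    (i : Fin (m+1)) (G H : Lp ℝ 2 μ) :
    form 𝒰 (sg hT t i G) (sg hT t i H) = inner ℝ G H := by
  apply form_eq
  have : ∀ n, inner ℝ ((sg hT t i G).1 n) ((sg hT t i H).1 n) = inner ℝ G H := fun n =>
    cmp_inner (pw_mp hT _) G H
  simp only [this]
  exact tendsto_const_nhds

lemma form_ts_ts (𝒰 : Ultrafilter ℕ) (hT : MeasurePreserving T μ μ) (t : ℕ → Fin (m+1) → ℤ)
    (hgap : ∀ N : ℕ, ∀ᶠ n in (𝒰 : Filter ℕ), Gap N (t n))
    (hmix : ∀ f : Fin m → Ω → ℝ, (∀ i, BM (f i)) → FunMix μ T f)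
    (i : Fin (m+1)) (F G : Fin m → Lp ℝ 2 μ) (hF : ∀ j, EB (F j)) (hG : ∀ j, EB (G j)) :
    form 𝒰 (ts hT t i F hF) (ts hT t i G hG) = ∏ j, inner ℝ (F j) (G j) := by
  apply form_eq
  have e1 : ∀ n, inner ℝ ((ts hT t i F hF).1 n) ((ts hT t i G hG).1 n)
      = corr μ T (fun j => t n (i.succAbove j)) (fun j x => F j x * G j x) := fun n =>
    inner_tv_tv hT _ F G hF hG
  simp only [e1]
  choose f hf1 hf2 using fun j => (hF j).bm
  choose g hg1 hg2 using fun j => (hG j).bm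
  have e2 : ∀ n, corr μ T (fun j => t n (i.succAbove j)) (fun j x => F j x * G j x)
      = corr μ T (fun j => t n (i.succAbove j)) (fun j x => f j x * g j x) := fun n =>
    corr_congr hT _ fun j => (hf2 j).mul (hg2 j)
  have e3 : ∏ j, inner ℝ (F j) (G j) = ∏ j, ∫ x, f j x * g j x ∂μ := by
    apply Finset.prod_congr rfl
    intro j _
    rw [inner_eq]
    exact integral_congr_ae ((hf2 j).mul (hg2 j))
  simp only [e2, e3]
  rw [Metric.tendsto_nhds]
  intro ε hε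
  obtain ⟨N, hN⟩ := hmix (fun j x => f j x * g j x) (fun j => (hf1 j).mul (hg1 j)) (ε/2)
    (by positivity)
  filter_upwards [hgap N] with n hn
  have := hN (fun j => t n (i.succAbove j)) (fun a b hab => hn _ _ (Fin.strictMono_succAbove i hab))
  rw [Real.dist_eq]
  linarith

/-- limit of multiple correlations -/
noncomputable def nu (𝒰 : Ultrafilter ℕ) (T : Ω ≃ᵐ Ω) (t : ℕ → Fin (m+1) → ℤ)
    (F : Fin (m+1) → Lp ℝ 2 μ) : ℝ :=
  limUnder (𝒰 : Filter ℕ) (fun n => corr μ T (t n) (fun i => ⇑(F i)))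

lemma nu_eq (𝒰 : Ultrafilter ℕ) (hT : MeasurePreserving T μ μ) (t : ℕ → Fin (m+1) → ℤ)
    (i : Fin (m+1)) (F : Fin (m+1) → Lp ℝ 2 μ) (hF : ∀ j, EB (F (i.succAbove j))) :
    nu 𝒰 T t F = form 𝒰 (ts hT t i (fun j => F (i.succAbove j)) hF) (sg hT t i (F i)) := by
  rw [form_apply]
  unfold nu form0
  congr 1
  funext n
  exact (inner_tv_koop hT i (t n) F hF).symm

variable {l : Filter ℕ} [l.NeBot]
variable {S : ℕ → Ω ≃ᵐ Ω} {hS : ∀ n, MeasurePreserving (S n) μ μ} {Q : Lp ℝ 2 μ →L[ℝ] Lp ℝ 2 μ}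

omit [IsProbabilityMeasure μ] in
lemma cmp_cmp_symm' (R : Ω ≃ᵐ Ω) (hR : MeasurePreserving R μ μ) (G : Lp ℝ 2 μ) :
    G = Lp.compMeasurePreserving R hR (Lp.compMeasurePreserving R.symm (hR.symm R) G) :=
  (cmp_cmp_symm R hR G).symm

lemma rel0 (𝒰 : Ultrafilter ℕ) (hT : MeasurePreserving T μ μ) (t : ℕ → Fin (m+1) → ℤ)
    (R : Ω ≃ᵐ Ω) (hR : MeasurePreserving R μ μ) (hc : ∀ x, R (T x) = T (R x))
    (i : Fin (m+1)) (F : Fin m → Lp ℝ 2 μ) (hF : ∀ j, EB (F j)) (G : Lp ℝ 2 μ) :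
    form 𝒰 (ts hT t i (fun j => Lp.compMeasurePreserving R hR (F j)) (fun j => (hF j).cmp hR))
      (sg hT t i G)
      = form 𝒰 (ts hT t i F hF) (sg hT t i (Lp.compMeasurePreserving R.symm (hR.symm R) G)) := by
  apply form_eq
  refine (form_tendsto 𝒰 _ _).congr fun n => ?_
  change inner ℝ (tv hT _ F hF) (koop hT (t n i) _) = inner ℝ (tv hT _
    (fun j => Lp.compMeasurePreserving R hR (F j)) (fun j => (hF j).cmp hR)) (koop hT (t n i) G)
  rw [← cmp_tv hT hR hc]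
  conv_rhs => rw [cmp_cmp_symm' R hR G]
  rw [← cmp_koop hT hR hc, cmp_inner hR]

lemma rel1 (𝒰 : Ultrafilter ℕ) (hT : MeasurePreserving T μ μ) (t : ℕ → Fin (m+1) → ℤ)
    (hgap : ∀ N : ℕ, ∀ᶠ n in (𝒰 : Filter ℕ), Gap N (t n))
    (hmix : ∀ f : Fin m → Ω → ℝ, (∀ i, BM (f i)) → FunMix μ T f)
    (hc : ∀ n x, S n (T x) = T (S n x)) (h : WL l S hS Q)
    (i : Fin (m+1)) (F : Fin m → Lp ℝ 2 μ) (hF : ∀ j, EB (F j)) (G : Lp ℝ 2 μ) :
    form 𝒰 (ts hT t i (fun j => Q (F j)) (fun j => h.eb (hF j))) (sg hT t i G)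
      = form 𝒰 (ts hT t i F hF) (sg hT t i (ContinuousLinearMap.adjoint Q G)) := by
  have A := fun r => rel0 𝒰 hT t (S r) (hS r) (hc r) i F hF G
  have B : Tendsto (fun r => form 𝒰 (ts hT t i
      (fun j => Lp.compMeasurePreserving (S r) (hS r) (F j)) (fun j => (hF j).cmp (hS r)))
      (sg hT t i G)) l
      (𝓝 (form 𝒰 (ts hT t i (fun j => Q (F j)) (fun j => h.eb (hF j))) (sg hT t i G))) := by
    apply weak_lim l (form 𝒰) (form_symm 𝒰) (form_nonneg 𝒰)
      (Submodule.span ℝ {y | ∃ (H : Fin m → Lp ℝ 2 μ) (hH : ∀ j, EB (H j)), y = ts hT t i H hH})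
      (sg hT t i G) _ _ (C := ∏ j, inner ℝ (F j) (F j))
    · intro n
      exact Submodule.subset_span ⟨_, _, rfl⟩
    · exact Submodule.subset_span ⟨_, _, rfl⟩
    · intro n
      rw [form_ts_ts 𝒰 hT t hgap hmix]
      apply le_of_eq
      exact Finset.prod_congr rfl fun j _ => cmp_inner _ _ _
    · intro v hv
      induction hv using Submodule.span_induction with
      | mem x hx =>
        obtain ⟨H, hH, rfl⟩ := hx
        simp only [form_ts_ts 𝒰 hT t hgap hmix]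
        exact tendsto_finsetProd _ fun j _ => h (F j) (H j)
      | zero => simp only [map_zero]; exact tendsto_const_nhds
      | add x y _ _ hx hy => simp only [map_add]; exact hx.add hy
      | smul a x _ hx => simp only [map_smul, smul_eq_mul]; exact hx.const_mul a
  have C : Tendsto (fun r => form 𝒰 (ts hT t i F hF)
      (sg hT t i (Lp.compMeasurePreserving (S r).symm ((hS r).symm (S r)) G))) l
      (𝓝 (form 𝒰 (ts hT t i F hF) (sg hT t i (ContinuousLinearMap.adjoint Q G)))) := by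
    rw [form_symm]
    refine Tendsto.congr (fun r => form_symm 𝒰 _ _) ?_
    apply weak_lim l (form 𝒰) (form_symm 𝒰) (form_nonneg 𝒰) (LinearMap.range (sg hT t i))
      (ts hT t i F hF) _ _ (C := inner ℝ G G)
    · intro n; exact ⟨_, rfl⟩
    · exact ⟨_, rfl⟩
    · intro n
      rw [form_sg_sg]
      exact (cmp_inner _ _ _).le
    · rintro _ ⟨H, rfl⟩
      simp only [form_sg_sg]
      exact h.adj G H
  refine tendsto_nhds_unique B (C.congr fun r => (A r).symm)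

/-- the operator `Q† Q` -/
noncomputable def PP (Q : Lp ℝ 2 μ →L[ℝ] Lp ℝ 2 μ) : Lp ℝ 2 μ →L[ℝ] Lp ℝ 2 μ :=
  (ContinuousLinearMap.adjoint Q).comp Q

lemma WL.ebP (h : WL l S hS Q) {f : Lp ℝ 2 μ} (hf : EB f) : EB (PP Q f) := h.adj.eb (h.eb hf)

lemma rel3 (𝒰 : Ultrafilter ℕ) (hT : MeasurePreserving T μ μ) (t : ℕ → Fin (m+1) → ℤ)
    (hgap : ∀ N : ℕ, ∀ᶠ n in (𝒰 : Filter ℕ), Gap N (t n))
    (hmix : ∀ f : Fin m → Ω → ℝ, (∀ i, BM (f i)) → FunMix μ T f)
    (hc : ∀ n x, S n (T x) = T (S n x)) (h : WL l S hS Q)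
    (i : Fin (m+1)) (F : Fin m → Lp ℝ 2 μ) (hF : ∀ j, EB (F j)) (G : Lp ℝ 2 μ) :
    form 𝒰 (ts hT t i (fun j => PP Q (F j)) (fun j => h.ebP (hF j))) (sg hT t i G)
      = form 𝒰 (ts hT t i F hF) (sg hT t i (PP Q G)) := by
  have hc' : ∀ n x, (S n).symm (T x) = T ((S n).symm x) := by
    intro n x
    rw [MeasurableEquiv.symm_apply_eq, hc]
    simp
  have h1 := rel1 𝒰 hT t hgap hmix hc' h.adj i (fun j => Q (F j)) (fun j => h.eb (hF j)) G
  have h2 := rel1 𝒰 hT t hgap hmix hc h i F hF (Q G)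
  rw [ContinuousLinearMap.adjoint_adjoint] at h1
  exact h1.trans h2

lemma nu_rel (𝒰 : Ultrafilter ℕ) (hT : MeasurePreserving T μ μ) (t : ℕ → Fin (m+1) → ℤ)
    (hgap : ∀ N : ℕ, ∀ᶠ n in (𝒰 : Filter ℕ), Gap N (t n))
    (hmix : ∀ f : Fin m → Ω → ℝ, (∀ i, BM (f i)) → FunMix μ T f)
    (hc : ∀ n x, S n (T x) = T (S n x)) (h : WL l S hS Q)
    (i : Fin (m+1)) (F : Fin (m+1) → Lp ℝ 2 μ) (hF : ∀ j, EB (F j)) :
    nu 𝒰 T t (Function.update (fun j => PP Q (F j)) i (F i))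
      = nu 𝒰 T t (Function.update F i (PP Q (F i))) := by
  have e1 : (fun j => Function.update (fun j => PP Q (F j)) i (F i) (i.succAbove j))
      = fun j => PP Q (F (i.succAbove j)) := by
    funext j; rw [Function.update_of_ne (Fin.succAbove_ne i j)]
  have e2 : (fun j => Function.update F i (PP Q (F i)) (i.succAbove j))
      = fun j => F (i.succAbove j) := by
    funext j; rw [Function.update_of_ne (Fin.succAbove_ne i j)]
  have hb1 : ∀ j, EB (Function.update (fun j => PP Q (F j)) i (F i) (i.succAbove j)) := by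
    intro j; rw [Function.update_of_ne (Fin.succAbove_ne i j)]; exact h.ebP (hF _)
  have hb2 : ∀ j, EB (Function.update F i (PP Q (F i)) (i.succAbove j)) := by
    intro j; rw [Function.update_of_ne (Fin.succAbove_ne i j)]; exact hF _
  rw [nu_eq 𝒰 hT t i _ hb1, nu_eq 𝒰 hT t i _ hb2,
    ts_congr hT t i hb1 (fun j => h.ebP (hF _)) e1, ts_congr hT t i hb2 (fun j => hF _) e2,
    Function.update_self, Function.update_self]
  exact rel3 𝒰 hT t hgap hmix hc h i (fun j => F (i.succAbove j)) (fun j => hF _) (F i)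

end Vale.Agent.P102
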