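import Mathlib
import Vale.Agent.Lib.P102.Nu

open MeasureTheory Filter Topology

namespace Vale.Agent.P102

variable {Ω : Type*} [MeasurableSpace Ω] {μ : Measure Ω} [IsProbabilityMeasure μ] {T : Ω ≃ᵐ Ω}
variable {m : ℕ}
variable {S : ℕ → Ω ≃ᵐ Ω} {hS : ∀ n, MeasurePreserving (S n) μ μ} {Q : Lp ℝ 2 μ →L[ℝ] Lp ℝ 2 μ}

/-- The standing relation. -/
def Rel (𝒰 : Ultrafilter ℕ) (T : Ω ≃ᵐ Ω) (t : ℕ → Fin (m+1) → ℤ)
    (P : Lp ℝ 2 μ → Lp ℝ 2 μ) : Prop :=
  (∀ G, EB G → EB (P G)) ∧ ∀ (i : Fin (m+1)) (F : Fin (m+1) → Lp ℝ 2 μ), (∀ j, EB (F j)) →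
    nu 𝒰 T t (Function.update (fun j => P (F j)) i (F i))
      = nu 𝒰 T t (Function.update F i (P (F i)))

variable {𝒰 : Ultrafilter ℕ} {t : ℕ → Fin (m+1) → ℤ} {P : Lp ℝ 2 μ → Lp ℝ 2 μ}

omit [IsProbabilityMeasure μ] in
lemma eb_update {F : Fin (m+1) → Lp ℝ 2 μ} (hF : ∀ j, EB (F j)) (i : Fin (m+1)) {G : Lp ℝ 2 μ}
    (hG : EB G) : ∀ j, EB (Function.update F i G j) := by
  intro j
  by_cases h : j = i
  · subst h; rwa [Function.update_self]
  · rw [Function.update_of_ne h]; exact hF j

omit [IsProbabilityMeasure μ] in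
lemma Rel.all (h : Rel 𝒰 T t P) (i : Fin (m+1)) (F : Fin (m+1) → Lp ℝ 2 μ)
    (hF : ∀ j, EB (F j)) :
    nu 𝒰 T t (Function.update F i (P (P (F i)))) = nu 𝒰 T t (fun l => P (F l)) := by
  have h1 := h.2 i (Function.update F i (P (F i))) (eb_update hF i (h.1 _ (hF i)))
  simp only [Function.update_self, Function.update_idem] at h1
  rw [← h1]
  congr 1
  funext j
  by_cases hj : j = i
  · subst hj; simp
  · simp [Function.update_of_ne hj]

omit [IsProbabilityMeasure μ] in
lemma Rel.move (h : Rel 𝒰 T t P) (i j : Fin (m+1)) (F : Fin (m+1) → Lp ℝ 2 μ)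
    (hF : ∀ j, EB (F j)) :
    nu 𝒰 T t (Function.update F i (P (P (F i)))) = nu 𝒰 T t (Function.update F j (P (P (F j)))) :=
  (h.all i F hF).trans (h.all j F hF).symm

omit [IsProbabilityMeasure μ] in
/-- `P²` applied at all coordinates of `s` can be moved to coordinate `i ∉ s`. -/
lemma Rel.app (h : Rel 𝒰 T t P) (i : Fin (m+1)) (s : Finset (Fin (m+1))) (his : i ∉ s) :
    ∀ F : Fin (m+1) → Lp ℝ 2 μ, (∀ j, EB (F j)) →
    nu 𝒰 T t (fun l => if l ∈ s then P (P (F l)) else F l)
      = nu 𝒰 T t (Function.update F i ((P ∘ P)^[s.card] (F i))) := by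
  classical
  induction s using Finset.induction_on with
  | empty =>
    intro F _
    simp
  | insert a s ha ih =>
    intro F hF
    have hai : a ≠ i := fun e => his (by simp [e])
    have his' : i ∉ s := fun e => his (by simp [e])
    have hH : ∀ j, EB ((fun l => if l ∈ s then P (P (F l)) else F l) j) := by
      intro j
      by_cases hj : j ∈ s
      · simp only [hj, if_true]; exact h.1 _ (h.1 _ (hF j))
      · simp only [hj, if_false]; exact hF j
    have e1 : (fun l => if l ∈ insert a s then P (P (F l)) else F l)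
        = Function.update (fun l => if l ∈ s then P (P (F l)) else F l) a
            (P (P ((fun l => if l ∈ s then P (P (F l)) else F l) a))) := by
      funext l
      by_cases hl : l = a
      · subst hl; simp [ha]
      · simp [hl]
    rw [e1, h.move a i _ hH]
    have e2 : Function.update (fun l => if l ∈ s then P (P (F l)) else F l) i
            (P (P ((fun l => if l ∈ s then P (P (F l)) else F l) i)))
        = fun l => if l ∈ s then P (P ((Function.update F i (P (P (F i)))) l))
            else (Function.update F i (P (P (F i)))) l := by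
      funext l
      by_cases hl : l = i
      · subst hl; simp [his']
      · simp [hl]
    rw [e2, ih his' _ (eb_update hF i (h.1 _ (h.1 _ (hF i))))]
    rw [Function.update_idem, Function.update_self, Finset.card_insert_of_notMem ha,
      Function.iterate_succ_apply]
    rfl

omit [IsProbabilityMeasure μ] in
lemma Rel.main (h : Rel 𝒰 T t P) (hm : 2 ≤ m) (i : Fin (m+1)) (F : Fin (m+1) → Lp ℝ 2 μ)
    (hF : ∀ j, EB (F j)) :
    nu 𝒰 T t (Function.update F i (P (F i)))
      = nu 𝒰 T t (Function.update F i ((P ∘ P)^[m-1] (P (F i)))) := by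
  classical
  obtain ⟨j, hij⟩ : ∃ j : Fin (m+1), j ≠ i := by
    have : Nontrivial (Fin (m+1)) := by
      rw [Fin.nontrivial_iff_two_le]; omega
    exact exists_ne i
  -- first step
  have h1 := h.2 i F hF
  -- second step
  set Y : Fin (m+1) → Lp ℝ 2 μ := Function.update (Function.update (fun l => P (F l)) i (F i)) j (F j)
    with hY
  have hYb : ∀ l, EB (Y l) :=
    eb_update (eb_update (fun l => h.1 _ (hF l)) i (hF i)) j (hF j)
  have hYj : Y j = F j := by simp [hY]
  have e1 : Function.update Y j (P (Y j)) = Function.update (fun l => P (F l)) i (F i) := by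
    rw [hYj, hY, Function.update_idem]
    funext l
    by_cases hl : l = j
    · subst hl; simp [hij]
    · simp [hl]
  have h2 := h.2 j Y hYb
  rw [e1, h1] at h2
  rw [← h2]
  have e2 : Function.update (fun l => P (Y l)) j (Y j)
      = fun l => if l ∈ (Finset.univ.erase i).erase j then
          P (P ((Function.update F i (P (F i))) l)) else (Function.update F i (P (F i))) l := by
    funext l
    by_cases hl : l = j
    · subst hl; simp [hYj, hij]
    · by_cases hl' : l = i
      · subst hl'
        simp [hY, Ne.symm hij]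
      · simp [hY, hl, hl']
  rw [e2, h.app i _ (by simp) _ (eb_update hF i (h.1 _ (hF i)))]
  rw [Function.update_idem, Function.update_self]
  have e3 : ((Finset.univ.erase i).erase j : Finset (Fin (m+1))).card = m - 1 := by
    rw [Finset.card_erase_of_mem (by simp [hij]), Finset.card_erase_of_mem (by simp)]
    simp
  rw [e3]

end Vale.Agent.P102
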