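import Mathlib
import Vale.Agent.Lib.P102.Move

open MeasureTheory Filter Topology

namespace Vale.Agent.P102

variable {Ω : Type*} [MeasurableSpace Ω] {μ : Measure Ω} [IsProbabilityMeasure μ] {T : Ω ≃ᵐ Ω}
variable {m : ℕ}
variable {l : Filter ℕ} [l.NeBot]
variable {S : ℕ → Ω ≃ᵐ Ω} {hS : ∀ n, MeasurePreserving (S n) μ μ} {Q : Lp ℝ 2 μ →L[ℝ] Lp ℝ 2 μ}
variable {𝒰 : Ultrafilter ℕ} {t : ℕ → Fin (m+1) → ℤ}

omit [IsProbabilityMeasure μ] in
lemma eb_dense : Dense {G : Lp ℝ 2 μ | EB G} := by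
  have h := Lp.simpleFunc.dense (E := ℝ) (μ := μ) (p := 2) (by norm_num)
  refine h.mono ?_
  intro G hG
  obtain ⟨f, hf⟩ := (Lp.simpleFunc.toSimpleFunc ⟨G, hG⟩).exists_forall_norm_le
  refine ⟨f, ?_⟩
  filter_upwards [Lp.simpleFunc.toSimpleFunc_eq_toFun ⟨G, hG⟩] with x hx
  have := hf x
  rw [hx] at this
  exact this

omit [IsProbabilityMeasure μ] in
lemma PP_inner (Q : Lp ℝ 2 μ →L[ℝ] Lp ℝ 2 μ) (x y : Lp ℝ 2 μ) :
    inner ℝ (PP Q x) y = inner ℝ x (PP Q y) := by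
  unfold PP
  simp only [ContinuousLinearMap.comp_apply]
  rw [ContinuousLinearMap.adjoint_inner_left, ContinuousLinearMap.adjoint_inner_right]

omit [IsProbabilityMeasure μ] in
lemma PP_inner_self (Q : Lp ℝ 2 μ →L[ℝ] Lp ℝ 2 μ) (x : Lp ℝ 2 μ) :
    inner ℝ (PP Q x) x = ‖Q x‖ ^ 2 := by
  unfold PP
  simp only [ContinuousLinearMap.comp_apply]
  rw [ContinuousLinearMap.adjoint_inner_left, real_inner_self_eq_norm_sq]

/-- functional against a product of translates, as a continuous linear functional -/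
noncomputable def lam (𝒰 : Ultrafilter ℕ) (hT : MeasurePreserving T μ μ)
    (t : ℕ → Fin (m+1) → ℤ) (i : Fin (m+1)) (F : Fin m → Lp ℝ 2 μ) (hF : ∀ j, EB (F j)) :
    Lp ℝ 2 μ →L[ℝ] ℝ :=
  LinearMap.mkContinuous ((form 𝒰 (ts hT t i F hF)) ∘ₗ (sg hT t i))
    (ts hT t i F hF).2.choose (fun G => by
      have := form_le 𝒰 (ts hT t i F hF) (sg hT t i G) (ts hT t i F hF).2.choose_spec
        (fun n => (koop_norm hT (t n i) G).le)
      simpa using this)

lemma lam_apply (hT : MeasurePreserving T μ μ) (i : Fin (m+1)) (F : Fin m → Lp ℝ 2 μ)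
    (hF : ∀ j, EB (F j)) (G : Lp ℝ 2 μ) :
    lam 𝒰 hT t i F hF G = form 𝒰 (ts hT t i F hF) (sg hT t i G) := rfl

/-- functions all of whose multiple correlations vanish -/
noncomputable def NN (𝒰 : Ultrafilter ℕ) (hT : MeasurePreserving T μ μ)
    (t : ℕ → Fin (m+1) → ℤ) : Submodule ℝ (Lp ℝ 2 μ) where
  carrier := {G | ∀ (F : Fin m → Lp ℝ 2 μ) (hF : ∀ j, EB (F j)), lam 𝒰 hT t 0 F hF G = 0}
  zero_mem' := fun F hF => map_zero _
  add_mem' := by
    intro G H hG hH F hF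
    rw [map_add, hG F hF, hH F hF, add_zero]
  smul_mem' := by
    intro c G hG F hF
    rw [map_smul, hG F hF, smul_zero]

lemma NN_closed (hT : MeasurePreserving T μ μ) :
    IsClosed ((NN 𝒰 hT t : Submodule ℝ (Lp ℝ 2 μ)) : Set (Lp ℝ 2 μ)) := by
  have : ((NN 𝒰 hT t : Submodule ℝ (Lp ℝ 2 μ)) : Set (Lp ℝ 2 μ))
      = ⋂ (F : Fin m → Lp ℝ 2 μ) (hF : ∀ j, EB (F j)), {G | lam 𝒰 hT t 0 F hF G = 0} := by
    ext G
    simp only [Set.mem_iInter, Set.mem_ofPred_eq]
    rfl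
  rw [this]
  exact isClosed_iInter fun F => isClosed_iInter fun hF =>
    isClosed_eq (lam 𝒰 hT t 0 F hF).continuous continuous_const

omit [IsProbabilityMeasure μ] in
lemma iter_inner {P : Lp ℝ 2 μ → Lp ℝ 2 μ} (hP : ∀ x y, inner ℝ (P x) y = inner ℝ x (P y)) (n : ℕ) :
    ∀ x y, inner ℝ ((P ∘ P)^[n] x) y = inner ℝ x ((P ∘ P)^[n] y) := by
  induction n with
  | zero => intro x y; rfl
  | succ n ih =>
    intro x y
    rw [Function.iterate_succ_apply, ih, Function.iterate_succ_apply', Function.comp, Function.comp,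
      hP, hP]

lemma sub_mem_NN (hT : MeasurePreserving T μ μ) (hm : 2 ≤ m)
    (hgap : ∀ N : ℕ, ∀ᶠ n in (𝒰 : Filter ℕ), Gap N (t n))
    (hmix : ∀ f : Fin m → Ω → ℝ, (∀ i, BM (f i)) → FunMix μ T f)
    (hc : ∀ n x, S n (T x) = T (S n x)) (h : WL l S hS Q) (G : Lp ℝ 2 μ) :
    PP Q G - (PP Q ∘ PP Q)^[m-1] (PP Q G) ∈ NN 𝒰 hT t := by
  intro F hF
  have hrel : Rel 𝒰 T t (PP Q) := ⟨fun G hG => h.ebP hG, fun i F hF => nu_rel 𝒰 hT t hgap hmix hc h i F hF⟩
  have hcont : Continuous fun G : Lp ℝ 2 μ =>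
      lam 𝒰 hT t 0 F hF (PP Q G - (PP Q ∘ PP Q)^[m-1] (PP Q G)) := by
    apply (lam 𝒰 hT t 0 F hF).continuous.comp
    apply (PP Q).continuous.sub
    exact (((PP Q).continuous.comp (PP Q).continuous).iterate (m-1)).comp (PP Q).continuous
  have hcl : IsClosed {G : Lp ℝ 2 μ | lam 𝒰 hT t 0 F hF (PP Q G - (PP Q ∘ PP Q)^[m-1] (PP Q G)) = 0} :=
    isClosed_eq hcont continuous_const
  have hsub : {G : Lp ℝ 2 μ | EB G} ⊆
      {G : Lp ℝ 2 μ | lam 𝒰 hT t 0 F hF (PP Q G - (PP Q ∘ PP Q)^[m-1] (PP Q G)) = 0} := by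
    intro G hG
    change lam 𝒰 hT t 0 F hF (PP Q G - (PP Q ∘ PP Q)^[m-1] (PP Q G)) = 0
    rw [map_sub, sub_eq_zero]
    set FF : Fin (m+1) → Lp ℝ 2 μ := Fin.cons G F with hFF
    have hFFb : ∀ j, EB (FF j) := by
      intro j
      refine Fin.cases ?_ (fun j => ?_) j
      · simpa [hFF] using hG
      · simpa [hFF] using hF j
    have key := hrel.main hm 0 FF hFFb
    have hval : ∀ H : Lp ℝ 2 μ, nu 𝒰 T t (Function.update FF 0 H) = lam 𝒰 hT t 0 F hF H := by
      intro H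
      have hb : ∀ j, EB (Function.update FF 0 H ((0 : Fin (m+1)).succAbove j)) := by
        intro j
        rw [Function.update_of_ne (Fin.succAbove_ne 0 j)]
        exact hFFb _
      have he : (fun j => Function.update FF 0 H ((0 : Fin (m+1)).succAbove j)) = F := by
        funext j
        rw [Function.update_of_ne (Fin.succAbove_ne 0 j)]
        simp [hFF]
      rw [nu_eq 𝒰 hT t 0 _ hb, lam_apply, Function.update_self, ts_congr hT t 0 hb hF he]
    rw [hval, hval] at key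
    simpa [hFF] using key
  have hfin := closure_minimal hsub hcl
  rw [eb_dense.closure_eq] at hfin
  exact hfin (Set.mem_univ G)

/-- A vector orthogonal to `NN` satisfies `P² f = P f`. -/
lemma orth_NN (hT : MeasurePreserving T μ μ) (hm : 2 ≤ m)
    (hgap : ∀ N : ℕ, ∀ᶠ n in (𝒰 : Filter ℕ), Gap N (t n))
    (hmix : ∀ f : Fin m → Ω → ℝ, (∀ i, BM (f i)) → FunMix μ T f)
    (hc : ∀ n x, S n (T x) = T (S n x)) (h : WL l S hS Q) (f : Lp ℝ 2 μ)
    (hf : ∀ G ∈ NN 𝒰 hT t, inner ℝ f G = 0) : PP Q (PP Q f) = PP Q f := by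
  have hPs := PP_inner (μ := μ) Q
  have h1 : ∀ G, inner ℝ (PP Q f - (PP Q) ((PP Q ∘ PP Q)^[m-1] f)) G = 0 := by
    intro G
    have := hf _ (sub_mem_NN (𝒰 := 𝒰) (t := t) hT hm hgap hmix hc h G)
    rw [inner_sub_right, ← hPs, ← iter_inner hPs, ← hPs] at this
    rw [inner_sub_left]
    exact this
  have h2 : PP Q f = (PP Q) ((PP Q ∘ PP Q)^[m-1] f) := by
    rw [← sub_eq_zero]
    exact inner_self_eq_zero.1 (h1 _)
  have hcomm : ∀ n x, (PP Q) ((PP Q ∘ PP Q)^[n] x) = (PP Q ∘ PP Q)^[n] (PP Q x) := by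
    intro n
    induction n with
    | zero => intro x; rfl
    | succ n ih =>
      intro x
      rw [Function.iterate_succ_apply, ih, Function.iterate_succ_apply]
      rfl
  rw [hcomm] at h2
  set y := PP Q f with hy
  have hQ : ∀ x, ‖Q x‖ ≤ ‖x‖ := h.norm_le
  have hP : ∀ x, ‖PP Q x‖ ≤ ‖Q x‖ := fun x => h.adj.norm_le (Q x)
  have hit : ∀ n x, ‖(PP Q ∘ PP Q)^[n] x‖ ≤ ‖x‖ := by
    intro n
    induction n with
    | zero => intro x; exact le_rfl
    | succ n ih =>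
      intro x
      rw [Function.iterate_succ_apply]
      exact (ih _).trans (((hP _).trans (hQ _)).trans ((hP _).trans (hQ _)))
  have h3 : ‖y‖ ≤ ‖Q y‖ := by
    obtain ⟨n, hn⟩ : ∃ n, m - 1 = n + 1 := ⟨m - 2, by omega⟩
    rw [hn, Function.iterate_succ_apply] at h2
    calc ‖y‖ = ‖(PP Q ∘ PP Q)^[n] ((PP Q ∘ PP Q) y)‖ := by rw [← h2]
      _ ≤ ‖(PP Q ∘ PP Q) y‖ := hit _ _
      _ ≤ ‖Q y‖ := ((hP _).trans (hQ _)).trans (hP _)
  have h4 : ‖PP Q y - y‖ ^ 2 ≤ 0 := by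
    rw [@norm_sub_sq_real, PP_inner_self]
    have a1 : ‖PP Q y‖ ≤ ‖y‖ := (hP _).trans (hQ _)
    nlinarith [norm_nonneg (PP Q y), norm_nonneg y, norm_nonneg (Q y)]
  have h5 : ‖PP Q y - y‖ = 0 := by
    have := sq_nonneg ‖PP Q y - y‖
    exact pow_eq_zero_iff (two_ne_zero) |>.1 (le_antisymm h4 this)
  exact sub_eq_zero.1 (norm_eq_zero.1 h5)

/-- constant function one -/
noncomputable def one (μ : Measure Ω) [IsProbabilityMeasure μ] : Lp ℝ 2 μ :=
  indicatorConstLp 2 MeasurableSet.univ (measure_ne_top μ Set.univ) (1:ℝ)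

lemma one_coe : (one μ : Lp ℝ 2 μ) =ᵐ[μ] fun _ => (1:ℝ) := by
  have := indicatorConstLp_coeFn (p := 2) (hs := MeasurableSet.univ)
    (hμs := measure_ne_top μ Set.univ) (c := (1:ℝ))
  filter_upwards [this] with x hx
  unfold one
  rw [hx]
  simp

lemma one_eb : EB (one μ) := ⟨1, by
  filter_upwards [one_coe (μ := μ)] with x hx
  rw [hx]; simp⟩

lemma inner_one (G : Lp ℝ 2 μ) : inner ℝ (one μ) G = ∫ x, G x ∂μ := by
  unfold one
  rw [L2.inner_indicatorConstLp_one]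
  simp

lemma koop_one (hT : MeasurePreserving T μ μ) (n : ℤ) : koop hT n (one μ) = one μ := by
  apply Lp.ext
  filter_upwards [Lp.coeFn_compMeasurePreserving (one μ) (pw_mp hT n),
    (pw_mp hT n).quasiMeasurePreserving.ae (one_coe (μ := μ)), one_coe (μ := μ)] with x h1 h2 h3
  unfold koop
  rw [h1, h3]
  exact h2

lemma integral_koop (hT : MeasurePreserving T μ μ) (n : ℤ) (G : Lp ℝ 2 μ) :
    ∫ x, koop hT n G x ∂μ = ∫ x, G x ∂μ := by
  rw [← inner_one, ← koop_one hT n, koop, koop, cmp_inner, inner_one]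

/-- elements of `NN` have mean zero -/
lemma NN_mean (hT : MeasurePreserving T μ μ) {G : Lp ℝ 2 μ} (hG : G ∈ NN 𝒰 hT t) :
    ∫ x, G x ∂μ = 0 := by
  have h := hG (fun _ => one μ) (fun _ => one_eb)
  rw [lam_apply] at h
  rw [← h]
  symm
  apply form_eq
  have hv : ∀ n, (ts hT t 0 (fun _ : Fin m => one μ) (fun _ => one_eb)).1 n = one μ := by
    intro n
    apply Lp.ext
    have hall : ∀ j : Fin m, ∀ᵐ x ∂μ, (one μ : Lp ℝ 2 μ) (pw T (t n ((0 : Fin (m+1)).succAbove j)) x) = 1 :=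
      fun j => (pw_mp hT _).quasiMeasurePreserving.ae (one_coe (μ := μ))
    have h1 := tv_coe hT (fun j => t n ((0 : Fin (m+1)).succAbove j)) (fun _ : Fin m => one μ)
      (fun _ => one_eb)
    filter_upwards [h1, ae_all_iff.2 hall, one_coe (μ := μ)] with x h1 h2 h3
    change (tv hT (fun j => t n ((0 : Fin (m+1)).succAbove j)) (fun _ : Fin m => one μ)
      (fun _ => one_eb)) x = _
    rw [h1, h3]
    simp only [tf]
    exact Finset.prod_eq_one fun j _ => h2 j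
  have : ∀ n, inner ℝ ((ts hT t 0 (fun _ : Fin m => one μ) (fun _ => one_eb)).1 n)
      ((sg hT t 0 G).1 n) = ∫ x, G x ∂μ := by
    intro n
    rw [hv n, inner_one]
    exact integral_koop hT _ G
  simp only [this]
  exact tendsto_const_nhds

/-- If mixing of order `m` holds and mixing of order `m+1` fails, some mean-zero function is not
in the annihilator space `NN` of a suitable limit. -/
lemma bad_exists (hT : MeasurePreserving T μ μ) (hmixm : MixingOfOrder μ T m)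
    (hnot : ¬ MixingOfOrder μ T (m+1)) :
    ∃ (𝒰 : Ultrafilter ℕ) (t : ℕ → Fin (m+1) → ℤ),
      (∀ N : ℕ, ∀ᶠ n in (𝒰 : Filter ℕ), Gap N (t n)) ∧
      ∃ G : Lp ℝ 2 μ, ∫ x, G x ∂μ = 0 ∧ G ∉ NN 𝒰 hT t := by
  classical
  have hmix : ∀ f : Fin m → Ω → ℝ, (∀ i, BM (f i)) → FunMix μ T f :=
    fun f hf => funMix_of_mixing hT hmixm f hf
  unfold MixingOfOrder at hnot
  push Not at hnot
  obtain ⟨A, hA, ε, hε, hcon⟩ := hnot
  choose t ht1 ht2 using hcon
  set 𝒰 : Ultrafilter ℕ := Filter.hyperfilter ℕ with h𝒰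
  have hle : (𝒰 : Filter ℕ) ≤ atTop := Nat.hyperfilter_le_atTop
  have hgap : ∀ N : ℕ, ∀ᶠ n in (𝒰 : Filter ℕ), Gap N (t n) := by
    intro N
    apply hle
    filter_upwards [eventually_ge_atTop N] with n hn i j hij
    have := ht1 n i j hij
    have h2 : (N:ℤ) ≤ n := by exact_mod_cast hn
    omega
  refine ⟨𝒰, t, hgap, ?_⟩
  by_contra hall
  push Not at hall
  -- indicator functions
  set F : Fin (m+1) → Lp ℝ 2 μ := fun i => indicatorConstLp 2 (hA i) (measure_ne_top μ _) (1:ℝ)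
    with hF
  have hFc : ∀ i, F i =ᵐ[μ] (A i).indicator (fun _ => (1:ℝ)) := fun i => indicatorConstLp_coeFn
  have hFb : ∀ i, EB (F i) := by
    intro i
    refine ⟨1, ?_⟩
    filter_upwards [hFc i] with x hx
    rw [hx]
    by_cases h : x ∈ A i <;> simp [h]
  have hFi : ∀ i, ∫ x, F i x ∂μ = μ.real (A i) := by
    intro i
    rw [integral_congr_ae (hFc i), integral_indicator (hA i)]
    simp [Measure.real]
  have hcorr : ∀ n, corr μ T (t n) (fun i => ⇑(F i)) = μ.real (⋂ i, (pw T (t n i)) ⁻¹' (A i)) := by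
    intro n
    rw [corr_congr hT (t n) hFc]
    unfold corr
    have : (fun x => ∏ i, (A i).indicator (fun _ => (1:ℝ)) (pw T (t n i) x))
        = (⋂ i, (pw T (t n i)) ⁻¹' (A i)).indicator (fun _ => (1:ℝ)) := by
      funext x
      by_cases hx : x ∈ ⋂ i, (pw T (t n i)) ⁻¹' (A i)
      · rw [Set.indicator_of_mem hx]
        apply Finset.prod_eq_one
        intro i _
        have hmem : pw T (t n i) x ∈ A i := Set.mem_iInter.1 hx i
        exact Set.indicator_of_mem hmem _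
      · rw [Set.indicator_of_notMem hx]
        rw [Set.mem_iInter, not_forall] at hx
        obtain ⟨i, hi⟩ := hx
        apply Finset.prod_eq_zero (Finset.mem_univ i)
        have hmem : pw T (t n i) x ∉ A i := hi
        exact Set.indicator_of_notMem hmem _
    rw [this, integral_indicator (MeasurableSet.iInter fun i => (pw_mp hT (t n i)).measurable (hA i))]
    simp [Measure.real]
  -- the limit
  have hnu : nu 𝒰 T t F = ∏ i, μ.real (A i) := by
    have hb : ∀ j, EB (F ((0 : Fin (m+1)).succAbove j)) := fun j => hFb _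
    rw [nu_eq 𝒰 hT t 0 F hb]
    set c : ℝ := μ.real (A 0) with hc
    have hdec : F 0 = (F 0 - c • one μ) + c • one μ := by abel
    have hmean : ∫ x, (F 0 - c • one μ : Lp ℝ 2 μ) x ∂μ = 0 := by
      rw [← inner_one, inner_sub_right, inner_smul_right, inner_one, inner_one, hFi 0,
        integral_congr_ae (one_coe (μ := μ))]
      simp [hc]
    have hN := hall _ hmean (fun j => F ((0 : Fin (m+1)).succAbove j)) hb
    rw [lam_apply] at hN
    rw [hdec, map_add, map_add, hN, zero_add, map_smul, map_smul, Fin.prod_univ_succ, ← hc,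
      smul_eq_mul]
    congr 1
    apply form_eq
    have e1 : ∀ n, inner ℝ ((ts hT t 0 (fun j => F ((0 : Fin (m+1)).succAbove j)) hb).1 n)
        ((sg hT t 0 (one μ)).1 n)
        = corr μ T (fun j => t n ((0 : Fin (m+1)).succAbove j))
          (fun j => (A ((0 : Fin (m+1)).succAbove j)).indicator (fun _ => (1:ℝ))) := by
      intro n
      change inner ℝ (tv hT _ _ hb) (koop hT _ (one μ)) = _
      rw [koop_one, real_inner_comm, inner_one, integral_congr_ae (tv_coe hT _ _ hb)]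
      exact corr_congr hT _ (fun j => hFc _)
    simp only [e1]
    rw [Metric.tendsto_nhds]
    intro δ hδ
    obtain ⟨N, hN⟩ := hmix (fun j => (A ((0 : Fin (m+1)).succAbove j)).indicator (fun _ => (1:ℝ)))
      (fun j => BM.indicator (hA _)) (δ/2) (by positivity)
    filter_upwards [hgap N] with n hn
    have h1 := hN (fun j => t n ((0 : Fin (m+1)).succAbove j))
      (fun a b hab => hn _ _ (Fin.strictMono_succAbove 0 hab))
    rw [Real.dist_eq]
    have e2 : ∏ j : Fin m, ∫ x, (A ((0 : Fin (m+1)).succAbove j)).indicator (fun _ => (1:ℝ)) x ∂μ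
        = ∏ j : Fin m, μ.real (A j.succ) := by
      apply Finset.prod_congr rfl
      intro j _
      rw [integral_indicator (hA _)]
      simp [Measure.real]
    rw [e2] at h1
    linarith
  have hlim : Tendsto (fun n => corr μ T (t n) (fun i => ⇑(F i))) 𝒰 (𝓝 (nu 𝒰 T t F)) := by
    apply tendsto_ul 𝒰 _ 1
    intro n
    rw [hcorr, abs_of_nonneg measureReal_nonneg]
    exact measureReal_le_one
  rw [hnu] at hlim
  have hev := (Metric.tendsto_nhds.1 hlim) ε hε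
  obtain ⟨n, hn⟩ := hev.exists
  rw [Real.dist_eq, hcorr] at hn
  exact absurd hn (not_lt.2 (ht2 n))

/-- `NN` is invariant under the centraliser. -/
lemma NN_inv (hT : MeasurePreserving T μ μ) (R : Ω ≃ᵐ Ω) (hR : MeasurePreserving R μ μ)
    (hc : ∀ x, R (T x) = T (R x)) {G : Lp ℝ 2 μ} (hG : G ∈ NN 𝒰 hT t) :
    Lp.compMeasurePreserving R hR G ∈ NN 𝒰 hT t := by
  intro F hF
  have hc' : ∀ x, R.symm (T x) = T (R.symm x) := by
    intro x
    rw [MeasurableEquiv.symm_apply_eq, hc]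
    simp
  have h1 := rel0 𝒰 hT t R.symm (hR.symm R) hc' 0 F hF G
  have h2 := hG (fun j => Lp.compMeasurePreserving R.symm (hR.symm R) (F j))
    (fun j => (hF j).cmp (hR.symm R))
  rw [lam_apply] at h2 ⊢
  rw [h2] at h1
  exact h1.symm

/-- The exceptional subspace. -/
noncomputable def bad (𝒰 : Ultrafilter ℕ) (hT : MeasurePreserving T μ μ)
    (t : ℕ → Fin (m+1) → ℤ) : Submodule ℝ (Lp ℝ 2 μ) where
  carrier := {f | (∫ x, f x ∂μ = 0) ∧ ∀ G ∈ NN 𝒰 hT t, inner ℝ f G = 0}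
  zero_mem' := by
    refine ⟨?_, fun G _ => inner_zero_left _⟩
    rw [← inner_one, inner_zero_right]
  add_mem' := by
    rintro f g ⟨hf1, hf2⟩ ⟨hg1, hg2⟩
    refine ⟨?_, fun G hG => ?_⟩
    · rw [← inner_one] at *
      rw [inner_add_right, hf1, hg1, add_zero]
    · rw [inner_add_left, hf2 G hG, hg2 G hG, add_zero]
  smul_mem' := by
    rintro c f ⟨hf1, hf2⟩
    refine ⟨?_, fun G hG => ?_⟩
    · rw [← inner_one] at *
      rw [inner_smul_right, hf1, mul_zero]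
    · rw [real_inner_smul_left, hf2 G hG, mul_zero]

lemma bad_closed (hT : MeasurePreserving T μ μ) :
    IsClosed ((bad 𝒰 hT t : Submodule ℝ (Lp ℝ 2 μ)) : Set (Lp ℝ 2 μ)) := by
  have : ((bad 𝒰 hT t : Submodule ℝ (Lp ℝ 2 μ)) : Set (Lp ℝ 2 μ))
      = {f | inner ℝ (one μ) f = 0} ∩ ⋂ G ∈ NN 𝒰 hT t, {f | inner ℝ f G = 0} := by
    ext f
    simp only [Set.mem_inter_iff, Set.mem_iInter, Set.mem_ofPred_eq, inner_one]
    rfl
  rw [this]
  refine IsClosed.inter (isClosed_eq (by fun_prop) continuous_const) ?_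
  exact isClosed_biInter fun G _ => isClosed_eq (by fun_prop) continuous_const

lemma bad_ne_bot (hT : MeasurePreserving T μ μ)
    (h : ∃ G : Lp ℝ 2 μ, ∫ x, G x ∂μ = 0 ∧ G ∉ NN 𝒰 hT t) : bad 𝒰 hT t ≠ ⊥ := by
  obtain ⟨G, hG, hGN⟩ := h
  intro hb
  apply hGN
  have : CompleteSpace (NN 𝒰 hT t : Submodule ℝ (Lp ℝ 2 μ)) :=
    (NN_closed (𝒰 := 𝒰) (t := t) hT).completeSpace_coe
  obtain ⟨n, hn, f, hf, hnf⟩ := (NN 𝒰 hT t).exists_add_mem_mem_orthogonal G
  have hfm : ∫ x, f x ∂μ = 0 := by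
    have h1 : ∫ x, G x ∂μ = (∫ x, n x ∂μ) + ∫ x, f x ∂μ := by
      rw [← inner_one, ← inner_one, ← inner_one, hnf, inner_add_right]
    rw [hG, NN_mean hT hn] at h1
    linarith
  have hfb : f ∈ bad 𝒰 hT t := ⟨hfm, fun G hG => by rw [real_inner_comm]; exact hf G hG⟩
  rw [hb, Submodule.mem_bot] at hfb
  rw [hnf, hfb, add_zero]
  exact hn

lemma bad_inv (hT : MeasurePreserving T μ μ) (R : Ω ≃ᵐ Ω) (hR : MeasurePreserving R μ μ)
    (hc : ∀ x, R (T x) = T (R x)) {f : Lp ℝ 2 μ} (hf : f ∈ bad 𝒰 hT t) :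
    Lp.compMeasurePreserving R hR f ∈ bad 𝒰 hT t := by
  have hc' : ∀ x, R.symm (T x) = T (R.symm x) := by
    intro x
    rw [MeasurableEquiv.symm_apply_eq, hc]
    simp
  refine ⟨?_, fun G hG => ?_⟩
  · rw [integral_congr_ae (Lp.coeFn_compMeasurePreserving f hR)]
    exact (hR.integral_comp R.measurableEmbedding _).trans hf.1
  · rw [cmp_cmp_symm' R hR G, cmp_inner hR]
    exact hf.2 _ (NN_inv hT R.symm (hR.symm R) hc' hG)

lemma bad_lim (hT : MeasurePreserving T μ μ) (hc : ∀ n x, S n (T x) = T (S n x))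
    (h : WL l S hS Q) {f : Lp ℝ 2 μ} (hf : f ∈ bad 𝒰 hT t) : Q f ∈ bad 𝒰 hT t := by
  refine ⟨(h.integral f).trans hf.1, fun G hG => ?_⟩
  refine tendsto_nhds_unique (h f G) ?_
  have : ∀ n, inner ℝ (Lp.compMeasurePreserving (S n) (hS n) f) G = 0 := fun n =>
    (bad_inv hT (S n) (hS n) (hc n) hf).2 G hG
  simp only [this]
  exact tendsto_const_nhds

/-- Structure theorem: the failure of multiple mixing is carried by a subspace on which the weak
closure of the centraliser acts by operators `Q` with `(Q† Q)² = Q† Q`. -/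
theorem structure_thm (hT : MeasurePreserving T μ μ) (h2 : MixingOfOrder μ T 2)
    (hnot : ∃ k, 2 ≤ k ∧ ¬ MixingOfOrder μ T k) :
    ∃ M : Submodule ℝ (Lp ℝ 2 μ), IsClosed (M : Set (Lp ℝ 2 μ)) ∧ M ≠ ⊥ ∧
      (∀ f ∈ M, ∫ x, f x ∂μ = 0) ∧
      (∀ (R : Ω ≃ᵐ Ω) (hR : MeasurePreserving R μ μ), (∀ x, R (T x) = T (R x)) →
        ∀ f ∈ M, Lp.compMeasurePreserving R hR f ∈ M) ∧
      (∀ (l : Filter ℕ) (_ : l.NeBot) (S : ℕ → Ω ≃ᵐ Ω) (hS : ∀ n, MeasurePreserving (S n) μ μ)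
        (Q : Lp ℝ 2 μ →L[ℝ] Lp ℝ 2 μ), (∀ n x, S n (T x) = T (S n x)) → WL l S hS Q → ∀ f ∈ M,
        Q f ∈ M ∧ PP Q (PP Q f) = PP Q f) := by
  classical
  -- a minimal order of failure
  obtain ⟨m, hm, hmix, hno⟩ : ∃ m, 2 ≤ m ∧ MixingOfOrder μ T m ∧ ¬ MixingOfOrder μ T (m+1) := by
    by_contra hall
    push Not at hall
    obtain ⟨k, hk, hkn⟩ := hnot
    apply hkn
    induction k, hk using Nat.le_induction with
    | base => exact h2
    | succ m hm ih =>
      by_cases hmm : MixingOfOrder μ T m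
      · exact hall m hm hmm
      · exact absurd (ih hmm) hmm
  obtain ⟨𝒰, t, hgap, hG⟩ := bad_exists hT hmix hno
  refine ⟨bad 𝒰 hT t, bad_closed hT, bad_ne_bot hT hG, fun f hf => hf.1,
    fun R hR hc f hf => bad_inv hT R hR hc hf, ?_⟩
  intro l _ S hS Q hc hQ f hf
  exact ⟨bad_lim (S := S) (hS := hS) hT hc hQ hf,
    orth_NN (S := S) (hS := hS) hT hm hgap
      (fun f hf => funMix_of_mixing hT hmix f hf) hc hQ f hf.2⟩

end Vale.Agent.P102
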