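import Mathlib
import Vale.Agent.Lib.P102.Main

open MeasureTheory Filter Topology

namespace Vale.Agent.P102

variable {Ω : Type*} [MeasurableSpace Ω] {μ : Measure Ω} [IsProbabilityMeasure μ] {T : Ω ≃ᵐ Ω}

/-- constant sequences -/
noncomputable def cst (μ : Measure Ω) : Lp ℝ 2 μ →ₗ[ℝ] BSeq (Lp ℝ 2 μ) where
  toFun G := ⟨fun _ => G, ‖G‖, fun _ => le_rfl⟩
  map_add' _ _ := rfl
  map_smul' _ _ := rfl

/-- orbit sequences under Koopman operators -/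
noncomputable def orb (S : ℕ → Ω ≃ᵐ Ω) (hS : ∀ n, MeasurePreserving (S n) μ μ) :
    Lp ℝ 2 μ →ₗ[ℝ] BSeq (Lp ℝ 2 μ) where
  toFun G := ⟨fun n => Lp.compMeasurePreserving (S n) (hS n) G, ‖G‖,
    fun n => (Lp.norm_compMeasurePreserving _ _).le⟩
  map_add' G H := by
    apply Subtype.ext
    funext n
    exact (Lp.compMeasurePreserving (S n) (hS n)).map_add G H
  map_smul' c G := by
    apply Subtype.ext
    funext n
    exact (Lp.compMeasurePreservingₗ ℝ (S n) (hS n)).map_smul c G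

omit [IsProbabilityMeasure μ] in
/-- weak limits along an ultrafilter exist -/
lemma exists_WL (𝒱 : Ultrafilter ℕ) (S : ℕ → Ω ≃ᵐ Ω) (hS : ∀ n, MeasurePreserving (S n) μ μ) :
    ∃ Q : Lp ℝ 2 μ →L[ℝ] Lp ℝ 2 μ, WL (𝒱 : Filter ℕ) S hS Q := by
  set B : Lp ℝ 2 μ →ₗ[ℝ] Lp ℝ 2 μ →ₗ[ℝ] ℝ := (form 𝒱).compl₁₂ (orb S hS) (cst μ) with hB
  have hb : ∀ x y, ‖B x y‖ ≤ 1 * ‖x‖ * ‖y‖ := by
    intro x y
    rw [hB, LinearMap.compl₁₂_apply, one_mul]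
    exact form_le 𝒱 _ _ (fun n => (Lp.norm_compMeasurePreserving _ _).le) (fun n => le_rfl)
  set Bc : Lp ℝ 2 μ →L[ℝ] Lp ℝ 2 μ →L[ℝ] ℝ := LinearMap.mkContinuous₂ B 1 hb with hBc
  refine ⟨InnerProductSpace.continuousLinearMapOfBilin Bc, fun f g => ?_⟩
  rw [InnerProductSpace.continuousLinearMapOfBilin_apply]
  exact form_tendsto 𝒱 (orb S hS f) (cst μ g)

omit [IsProbabilityMeasure μ] in
/-- the key norm identity on the exceptional subspace -/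
lemma norm_adj_eq {Q : Lp ℝ 2 μ →L[ℝ] Lp ℝ 2 μ} {f : Lp ℝ 2 μ} (h : PP Q (PP Q f) = PP Q f) :
    ‖ContinuousLinearMap.adjoint Q (Q f)‖ ^ 2 = ‖Q f‖ ^ 2 := by
  have h1 : ‖PP Q f‖ ^ 2 = ‖Q f‖ ^ 2 := by
    rw [← real_inner_self_eq_norm_sq, ← PP_inner Q (PP Q f) f, h, PP_inner_self]
  exact h1

lemma ae_eq_of_set {F G : Lp ℝ 2 μ}
    (h : ∀ A, MeasurableSet A → ∫ x in A, F x ∂μ = ∫ x in A, G x ∂μ) : F = G := by
  apply Lp.ext
  exact (lp_integrable F).ae_eq_of_forall_setIntegral_eq F G (lp_integrable G)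
    (fun A hA _ => h A hA)

omit [IsProbabilityMeasure μ] in
lemma toLp_norm_sq {g : Ω → ℝ} (hg : MemLp g 2 μ) : ‖hg.toLp g‖ ^ 2 = ∫ x, g x ^ 2 ∂μ := by
  rw [← real_inner_self_eq_norm_sq, inner_eq]
  apply integral_congr_ae
  filter_upwards [hg.coeFn_toLp] with x hx
  rw [hx]; ring

/-- Weak limits read off from set integrals. -/
lemma WL.eq_of_weakTo {l : Filter ℕ} [l.NeBot] (hl : l ≤ atTop) {S : ℕ → Ω ≃ᵐ Ω}
    {hS : ∀ n, MeasurePreserving (S n) μ μ} {Q : Lp ℝ 2 μ →L[ℝ] Lp ℝ 2 μ} (hQ : WL l S hS Q)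
    (F G : Lp ℝ 2 μ) {f g : Ω → ℝ} (hf : F =ᵐ[μ] f) (hg : G =ᵐ[μ] g)
    (hw : WeakTo μ (fun n => f ∘ S n) g) : Q F = G := by
  apply ae_eq_of_set
  intro A hA
  refine tendsto_nhds_unique (hQ.setIntegral F hA) ?_
  have h1 := (hw A hA).mono_left hl
  have e1 : ∫ x in A, G x ∂μ = ∫ x in A, g x ∂μ := setIntegral_congr_ae hA (hg.mono fun x hx _ => hx)
  rw [e1]
  refine h1.congr fun n => ?_
  apply setIntegral_congr_ae hA
  filter_upwards [Lp.coeFn_compMeasurePreserving F (hS n),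
    (hS n).quasiMeasurePreserving.ae hf] with x h1 h2 _
  rw [h1]
  exact h2.symm

/-- Main criterion. -/
theorem criterion (hT : MeasurePreserving T μ μ) (h2 : MixingOfOrder μ T 2)
    (hyp : ∀ f : Ω → ℝ, MemLp f 2 μ → ∫ x, f x ∂μ = 0 → ¬ (f =ᵐ[μ] 0) →
      ∃ (S : ℕ → Ω ≃ᵐ Ω) (g h : Ω → ℝ), (∀ n, MeasurePreserving (S n) μ μ) ∧
        (∀ n x, S n (T x) = T (S n x)) ∧ MemLp g 2 μ ∧ MemLp h 2 μ ∧
        WeakTo μ (fun n => f ∘ S n) g ∧ WeakTo μ (fun n => g ∘ (S n).symm) h ∧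
        ∫ x, h x ^ 2 ∂μ < ∫ x, g x ^ 2 ∂μ) :
    ∀ k, 2 ≤ k → MixingOfOrder μ T k := by
  intro k hk
  by_contra hno
  obtain ⟨M, -, hne, hmean, -, hM⟩ := structure_thm hT h2 ⟨k, hk, hno⟩
  obtain ⟨f, hf, hf0⟩ := Submodule.exists_mem_ne_zero_of_ne_bot hne
  have hf0' : ¬ (f =ᵐ[μ] (0 : Ω → ℝ)) := fun h => hf0 ((Lp.eq_zero_iff_ae_eq_zero).2 h)
  obtain ⟨S, g, h, hS, hc, hg, hh, hw1, hw2, hlt⟩ := hyp f (Lp.memLp f) (hmean f hf) hf0'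
  set 𝒱 : Ultrafilter ℕ := Filter.hyperfilter ℕ with h𝒱
  have hle : (𝒱 : Filter ℕ) ≤ atTop := Nat.hyperfilter_le_atTop
  obtain ⟨Q, hQ⟩ := exists_WL 𝒱 S hS
  have e1 : Q f = hg.toLp g := hQ.eq_of_weakTo hle f _ (EventuallyEq.refl _ _) hg.coeFn_toLp hw1
  have e2 : ContinuousLinearMap.adjoint Q (hg.toLp g) = hh.toLp h :=
    hQ.adj.eq_of_weakTo hle _ _ hg.coeFn_toLp hh.coeFn_toLp hw2
  have key := norm_adj_eq (hM 𝒱 inferInstance S hS Q hc hQ f hf).2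
  rw [e1, e2, toLp_norm_sq, toLp_norm_sq] at key
  exact absurd key hlt.ne

/-- A weak limit which is injective and strictly contractive on mean-zero functions. -/
theorem strict_thm (hT : MeasurePreserving T μ μ) (h2 : MixingOfOrder μ T 2)
    {l : Filter ℕ} [l.NeBot] {S : ℕ → Ω ≃ᵐ Ω} {hS : ∀ n, MeasurePreserving (S n) μ μ}
    (hc : ∀ n x, S n (T x) = T (S n x)) {Q : Lp ℝ 2 μ →L[ℝ] Lp ℝ 2 μ} (hQ : WL l S hS Q)
    (hyp : ∀ f : Lp ℝ 2 μ, ∫ x, f x ∂μ = 0 → f ≠ 0 → 0 < ‖Q f‖ ∧ ‖Q f‖ < ‖f‖) :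
    ∀ k, 2 ≤ k → MixingOfOrder μ T k := by
  intro k hk
  by_contra hno
  obtain ⟨M, -, hne, hmean, -, hM⟩ := structure_thm hT h2 ⟨k, hk, hno⟩
  obtain ⟨f, hf, hf0⟩ := Submodule.exists_mem_ne_zero_of_ne_bot hne
  have h := (hM l inferInstance S hS Q hc hQ f hf).2
  have hmean' : ∫ x, PP Q f x ∂μ = 0 :=
    (hQ.adj.integral (Q f)).trans ((hQ.integral f).trans (hmean f hf))
  have hy : ‖Q (PP Q f)‖ ^ 2 = ‖PP Q f‖ ^ 2 := by
    rw [← PP_inner_self, h, real_inner_self_eq_norm_sq]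
  by_cases h0 : PP Q f = 0
  · have h1 : ‖Q f‖ ^ 2 = 0 := by rw [← PP_inner_self, h0, inner_zero_left]
    have h2 := (hyp f (hmean f hf) hf0).1
    rw [pow_eq_zero_iff two_ne_zero] at h1
    exact absurd h1 h2.ne'
  · have h1 := (hyp _ hmean' h0).2
    have h2 := (hyp _ hmean' h0).1
    nlinarith [norm_nonneg (PP Q f)]

end Vale.Agent.P102
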