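import Mathlib
import Vale.Agent.Lib.P102.Final

open MeasureTheory Filter Topology

namespace Vale.Agent.P102

variable {Ω : Type*} [MeasurableSpace Ω] {μ : Measure Ω} [IsProbabilityMeasure μ] {T : Ω ≃ᵐ Ω}

lemma closed_conv {E : Type*} [SeminormedAddCommGroup E] (L : ℕ → E → ℝ) (L0 : E → ℝ) (C : ℝ)
    (hL : ∀ n g h, |L n g - L n h| ≤ C * ‖g - h‖) (hL0 : ∀ g h, |L0 g - L0 h| ≤ C * ‖g - h‖) :
    IsClosed {g | Tendsto (fun n => L n g) atTop (𝓝 (L0 g))} := by
  apply isClosed_of_closure_subset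
  intro g hg
  change Tendsto (fun n => L n g) atTop (𝓝 (L0 g))
  rw [Metric.tendsto_atTop]
  intro ε hε
  obtain ⟨h, hh, hd⟩ := Metric.mem_closure_iff.1 hg (ε / (3 * (|C| + 1))) (by positivity)
  obtain ⟨N, hN⟩ := (Metric.tendsto_atTop.1 hh) (ε/3) (by positivity)
  have hb : C * ‖g - h‖ ≤ ε / 3 := by
    rw [dist_eq_norm] at hd
    have h1 : (|C| + 1) * (ε / (3 * (|C| + 1))) = ε / 3 := by field_simp
    calc C * ‖g - h‖ ≤ (|C| + 1) * ‖g - h‖ := by
          apply mul_le_mul_of_nonneg_right _ (norm_nonneg _)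
          linarith [le_abs_self C]
      _ ≤ (|C| + 1) * (ε / (3 * (|C| + 1))) := by gcongr
      _ = ε / 3 := h1
  refine ⟨N, fun n hn => ?_⟩
  have a1 := abs_le.1 ((hL n g h).trans hb)
  have a2 := abs_le.1 ((hL0 g h).trans hb)
  have a3 := hN n hn
  rw [Real.dist_eq, abs_lt] at a3 ⊢
  constructor <;> linarith [a1.1, a1.2, a2.1, a2.2, a3.1, a3.2]

lemma abs_inner_sub_le {E : Type*} [NormedAddCommGroup E] [InnerProductSpace ℝ E] (x g h : E) :
    |inner ℝ x g - inner ℝ x h| ≤ ‖x‖ * ‖g - h‖ := by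
  rw [← inner_sub_right]; exact abs_real_inner_le_norm _ _

/-- the limit operator `α I + (1-α) Θ` -/
noncomputable def kap (μ : Measure Ω) [IsProbabilityMeasure μ] (α : ℝ) :
    Lp ℝ 2 μ →L[ℝ] Lp ℝ 2 μ :=
  α • ContinuousLinearMap.id ℝ _ + (1 - α) • (innerSL ℝ (one μ)).smulRight (one μ)

lemma kap_apply (α : ℝ) (f : Lp ℝ 2 μ) :
    kap μ α f = α • f + ((1 - α) * ∫ x, f x ∂μ) • one μ := by
  simp [kap, inner_one, smul_smul]

lemma inner_ind (A B : Set Ω) (hA : MeasurableSet A) (hB : MeasurableSet B) :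
    inner ℝ (indicatorConstLp 2 hB (measure_ne_top μ B) (1:ℝ))
      (indicatorConstLp 2 hA (measure_ne_top μ A) (1:ℝ)) = μ.real (A ∩ B) := by
  rw [L2.inner_indicatorConstLp_one, setIntegral_congr_ae hB
    (g := A.indicator (fun _ => (1:ℝ)))
    (indicatorConstLp_coeFn (p := 2) (hs := hA) (hμs := measure_ne_top μ A) (c := (1:ℝ)) |>.mono
      fun x hx _ => hx)]
  rw [integral_indicator hA, Measure.restrict_restrict hA]
  simp [Measure.real]

lemma cmp_ind (S : Ω ≃ᵐ Ω) (hS : MeasurePreserving S μ μ) (B : Set Ω) (hB : MeasurableSet B) :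
    Lp.compMeasurePreserving S hS (indicatorConstLp 2 hB (measure_ne_top μ B) (1:ℝ))
      = indicatorConstLp 2 (S.measurable hB) (measure_ne_top μ (S ⁻¹' B)) (1:ℝ) := by
  exact Lp.indicatorConstLp_compMeasurePreserving hB (measure_ne_top μ B) (1:ℝ) hS

lemma kappa_limit (α : ℝ) (S : ℕ → Ω ≃ᵐ Ω)
    (hS : ∀ n, MeasurePreserving (S n) μ μ)
    (hlim : ∀ A B : Set Ω, MeasurableSet A → MeasurableSet B →
      Tendsto (fun n => μ.real (A ∩ (S n) ⁻¹' B)) atTop
        (𝓝 (α * μ.real (A ∩ B) + (1 - α) * (μ.real A * μ.real B)))) :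
    WL atTop S hS (kap μ α) := by
  -- indicator case
  have hind : ∀ (A B : Set Ω) (hA : MeasurableSet A) (hB : MeasurableSet B),
      Tendsto (fun n => inner ℝ (Lp.compMeasurePreserving (S n) (hS n)
        (indicatorConstLp 2 hB (measure_ne_top μ B) (1:ℝ)))
        (indicatorConstLp 2 hA (measure_ne_top μ A) (1:ℝ))) atTop
      (𝓝 (inner ℝ (kap μ α (indicatorConstLp 2 hB (measure_ne_top μ B) (1:ℝ)))
        (indicatorConstLp 2 hA (measure_ne_top μ A) (1:ℝ)))) := by
    intro A B hA hB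
    have e1 : ∀ n, inner ℝ (Lp.compMeasurePreserving (S n) (hS n)
        (indicatorConstLp 2 hB (measure_ne_top μ B) (1:ℝ)))
        (indicatorConstLp 2 hA (measure_ne_top μ A) (1:ℝ)) = μ.real (A ∩ (S n) ⁻¹' B) := by
      intro n
      rw [cmp_ind, inner_ind]
    have e2 : inner ℝ (kap μ α (indicatorConstLp 2 hB (measure_ne_top μ B) (1:ℝ)))
        (indicatorConstLp 2 hA (measure_ne_top μ A) (1:ℝ))
        = α * μ.real (A ∩ B) + (1 - α) * (μ.real A * μ.real B) := by
      have i1 : ∀ (C : Set Ω) (hC : MeasurableSet C),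
          ∫ x, (indicatorConstLp 2 hC (measure_ne_top μ C) (1:ℝ) : Lp ℝ 2 μ) x ∂μ = μ.real C := by
        intro C hC
        rw [← inner_one, one, inner_ind]
        simp
      rw [kap_apply, inner_add_left, real_inner_smul_left, real_inner_smul_left, inner_ind,
        inner_one, i1, i1]
      ring
    simp only [e1, e2]
    exact hlim A B hA hB
  have hnorm : ∀ (n : ℕ) (f : Lp ℝ 2 μ), ‖Lp.compMeasurePreserving (S n) (hS n) f‖ = ‖f‖ :=
    fun n f => Lp.norm_compMeasurePreserving _ _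
  -- general scalar multiples of indicators
  have hsm : ∀ (c : ℝ) {C : Set Ω} (hC : MeasurableSet C) (hμ : μ C < ⊤),
      ((Lp.simpleFunc.indicatorConst 2 hC hμ.ne c : Lp.simpleFunc ℝ 2 μ) : Lp ℝ 2 μ)
        = c • indicatorConstLp 2 hC (measure_ne_top μ C) (1:ℝ) := by
    intro c C hC hμ
    rw [Lp.simpleFunc.coe_indicatorConst]
    apply Lp.ext
    filter_upwards [indicatorConstLp_coeFn (p := 2) (hs := hC) (hμs := hμ.ne) (c := c),
      Lp.coeFn_smul c (indicatorConstLp 2 hC (measure_ne_top μ C) (1:ℝ) : Lp ℝ 2 μ),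
      indicatorConstLp_coeFn (p := 2) (hs := hC) (hμs := measure_ne_top μ C) (c := (1:ℝ))]
      with x a1 a2 a3
    rw [a1, a2, Pi.smul_apply, a3]
    by_cases h : x ∈ C <;> simp [h]
  -- extend in the second variable
  have h1 : ∀ (B : Set Ω) (hB : MeasurableSet B) (g : Lp ℝ 2 μ),
      Tendsto (fun n => inner ℝ (Lp.compMeasurePreserving (S n) (hS n)
        (indicatorConstLp 2 hB (measure_ne_top μ B) (1:ℝ))) g) atTop
      (𝓝 (inner ℝ (kap μ α (indicatorConstLp 2 hB (measure_ne_top μ B) (1:ℝ))) g)) := by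
    intro B hB g
    set b : Lp ℝ 2 μ := indicatorConstLp 2 hB (measure_ne_top μ B) (1:ℝ) with hb
    induction g using Lp.induction (by norm_num : (2:ENNReal) ≠ ⊤) with
    | indicatorConst c hC hμ =>
      rw [hsm c hC hμ]
      simp only [inner_smul_right]
      exact (hind _ _ hC hB).const_mul c
    | add hf hg _ h1 h2 =>
      simp only [inner_add_right]
      exact h1.add h2
    | isClosed =>
      refine closed_conv (fun n g => inner ℝ (Lp.compMeasurePreserving (S n) (hS n) b) g)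
        (fun g => inner ℝ (kap μ α b) g) (max ‖b‖ ‖kap μ α b‖) ?_ ?_
      · intro n g h
        refine (abs_inner_sub_le _ _ _).trans ?_
        rw [hnorm]
        exact mul_le_mul_of_nonneg_right (le_max_left _ _) (norm_nonneg _)
      · intro g h
        refine (abs_inner_sub_le _ _ _).trans ?_
        exact mul_le_mul_of_nonneg_right (le_max_right _ _) (norm_nonneg _)
  intro f g
  induction f using Lp.induction (by norm_num : (2:ENNReal) ≠ ⊤) with
  | indicatorConst c hC hμ =>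
    rw [hsm c hC hμ]
    have e : ∀ n, Lp.compMeasurePreserving (S n) (hS n)
        (c • (indicatorConstLp 2 hC (measure_ne_top μ _) (1:ℝ) : Lp ℝ 2 μ))
        = c • Lp.compMeasurePreserving (S n) (hS n)
          (indicatorConstLp 2 hC (measure_ne_top μ _) (1:ℝ) : Lp ℝ 2 μ) := fun n =>
      (Lp.compMeasurePreservingₗ ℝ (S n) (hS n)).map_smul c _
    simp only [e, map_smul, real_inner_smul_left]
    exact (h1 _ hC g).const_mul c
  | add hf hg _ h1 h2 =>
    simp only [map_add, inner_add_left]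
    exact h1.add h2
  | isClosed =>
    refine closed_conv (fun n f => inner ℝ (Lp.compMeasurePreserving (S n) (hS n) f) g)
      (fun f => inner ℝ (kap μ α f) g) (max ‖g‖ (‖kap μ α‖ * ‖g‖)) ?_ ?_
    · intro n f h
      rw [← inner_sub_left, ← map_sub]
      refine (abs_real_inner_le_norm _ _).trans ?_
      rw [hnorm, mul_comm]
      exact mul_le_mul_of_nonneg_right (le_max_left _ _) (norm_nonneg _)
    · intro f h
      rw [← inner_sub_left, ← map_sub]
      refine (abs_real_inner_le_norm _ _).trans ?_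
      calc ‖kap μ α (f - h)‖ * ‖g‖ ≤ (‖kap μ α‖ * ‖f - h‖) * ‖g‖ := by
            gcongr; exact (kap μ α).le_opNorm _
        _ = (‖kap μ α‖ * ‖g‖) * ‖f - h‖ := by ring
        _ ≤ _ := mul_le_mul_of_nonneg_right (le_max_right _ _) (norm_nonneg _)

/-- `κ`-mixing sequences in the centraliser force multiple mixing. -/
theorem kappa_thm (hT : MeasurePreserving T μ μ) (h2 : MixingOfOrder μ T 2)
    (α : ℝ) (h0 : 0 < α) (h1 : α < 1) (S : ℕ → Ω ≃ᵐ Ω)
    (hS : ∀ n, MeasurePreserving (S n) μ μ) (hc : ∀ n x, S n (T x) = T (S n x))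
    (hlim : ∀ A B : Set Ω, MeasurableSet A → MeasurableSet B →
      Tendsto (fun n => μ.real (A ∩ (S n) ⁻¹' B)) atTop
        (𝓝 (α * μ.real (A ∩ B) + (1 - α) * (μ.real A * μ.real B)))) :
    ∀ k, 2 ≤ k → MixingOfOrder μ T k := by
  apply strict_thm hT h2 hc (kappa_limit α S hS hlim)
  intro f hf hf0
  rw [kap_apply, hf, mul_zero, zero_smul, add_zero, norm_smul, Real.norm_eq_abs, abs_of_pos h0]
  have : 0 < ‖f‖ := norm_pos_iff.2 hf0
  constructor
  · positivity
  · nlinarith

end Vale.Agent.P102
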